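import Vale.Agent.P327.MathlibUsed
import Vale.Agent.P327.Defs

set_option linter.all false

section

section

/-!
Core definitions for P327 (rigidity of the Turing degrees).
Reals are points of Cantor space `Om = Nat -> Bool` (additive group, addition is xor).
A functional is a monotone primitive recursive map on finite strings.
-/

namespace Vale.Agent.P327

/-- Points of Cantor space. `Om` is an additive topological group (addition is xor). -/
abbrev Om := ℕ → Bool

/-- Initial segment of length `n`. -/
def pre (X : Om) (n : ℕ) : List Bool := (List.range n).map X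

/-- Computable continuous functionals, presented by monotone primitive recursive string maps. -/
structure IsFn (φ : List Bool → List Bool) : Prop where
  prim : Primrec φ
  mono : ∀ σ τ, σ <+: τ → φ σ <+: φ τ

/-- The functional `φ` sends the real `X` to the (total) real `Y`. -/
def Maps (φ : List Bool → List Bool) (X Y : Om) : Prop :=
  (∀ m, φ (pre X m) = pre Y (φ (pre X m)).length) ∧ ∀ n, ∃ m, n ≤ (φ (pre X m)).length

/-- `Red X Y` : `X` is Turing reducible to `Y`. -/
def Red (X Y : Om) : Prop := ∃ φ, IsFn φ ∧ Maps φ Y X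

/-- Turing equivalence of reals. -/
def Eqv (X Y : Om) : Prop := Red X Y ∧ Red Y X

/-- Join: even bits from `X`, odd bits from `Y`. -/
def jn (X Y : Om) : Om := fun n => if n % 2 = 0 then X (n / 2) else Y (n / 2)

/-- The `i`-th column of `X`. -/
def col (i : ℕ) (X : Om) : Om := fun m => X (Nat.pair i m)

/-- Assemble a real from its columns. -/
def ofCols (f : ℕ → Om) : Om := fun n => f n.unpair.1 n.unpair.2

/-- Zero out the `i`-th column. -/
def delCol (i : ℕ) (X : Om) : Om := fun n => if n.unpair.1 = i then false else X n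

/-- Keep only the columns with index in `h`. -/
def selCols (h X : Om) : Om := fun n => h n.unpair.1 && X n

/-- Left shift on every track (column). -/
def sh (X : Om) : Om := fun n => X (Nat.pair n.unpair.1 (n.unpair.2 + 1))

/-- `tens r a` has column `j` equal to `a` if `r j`, and `0` otherwise. -/
def tens (r a : Om) : Om := fun n => r n.unpair.1 && a n.unpair.2

/-- Sparse copy of `a` : bit `i` of `a` is placed at position `i * i`. -/
def spread (a : Om) : Om := fun n => (Nat.sqrt n * Nat.sqrt n == n) && a (Nat.sqrt n)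

/-- The real whose only nonzero bit is at position `g`. -/
def unit (g : ℕ) : Om := fun n => decide (n = g)

@[simp] theorem pre_length (X : Om) (n : ℕ) : (pre X n).length = n := by simp [pre]

theorem pre_getElem (X : Om) (n i : ℕ) (h : i < (pre X n).length) : (pre X n)[i] = X i := by
  simp [pre]

theorem pre_getElem? (X : Om) (n i : ℕ) : (pre X n)[i]? = if i < n then some (X i) else none := by
  by_cases h : i < n
  · simp [pre, h]
  · simp [pre, h]

theorem pre_take (X : Om) (n m : ℕ) (h : m ≤ n) : (pre X n).take m = pre X m := by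
  simp only [pre, ← List.map_take, List.take_range, h, inf_of_le_left]

theorem pre_prefix (X : Om) {m n : ℕ} (h : m ≤ n) : pre X m <+: pre X n := by
  rw [← pre_take X n m h]; exact List.take_prefix _ _

theorem eq_pre_of_prefix {X : Om} {σ : List Bool} {n : ℕ} (h : σ <+: pre X n) :
    σ = pre X σ.length := by
  have h1 := List.prefix_iff_eq_take.1 h
  have h2 : σ.length ≤ n := by simpa using h.length_le
  rw [pre_take X n _ h2] at h1
  exact h1

theorem pre_eq_iff (X Y : Om) (n : ℕ) : pre X n = pre Y n ↔ ∀ i < n, X i = Y i := by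
  simp only [pre, List.map_inj_left, List.mem_range]

end Vale.Agent.P327
end
end

section

section

/-!
Enumeration of the functionals, and measurability of Turing reducibility.
-/

open MeasureTheory Topology Filter

namespace Vale.Agent.P327

open Encodable

theorem countable_isFn : {ψ : List Bool → List Bool | IsFn ψ}.Countable := by
  have h : ∀ ψ : {ψ : List Bool → List Bool // IsFn ψ}, ∃ c : Nat.Partrec.Code,
      Nat.Partrec.Code.eval c =
        fun n => Part.some (encode ((decode (α := List Bool) n).map ψ.1)) := by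
    intro ψ
    exact Nat.Partrec.Code.exists_code.1 (Nat.Partrec.of_primrec ψ.2.prim)
  choose c hc using h
  have hinj : Function.Injective c := by
    intro ψ ψ' hh
    have h1 : (fun n => Part.some (encode ((decode (α := List Bool) n).map ψ.1))) =
        fun n => Part.some (encode ((decode (α := List Bool) n).map ψ'.1)) := by
      rw [← hc ψ, ← hc ψ', hh]
    apply Subtype.ext
    funext σ
    have h2 := congrFun h1 (encode σ)
    simp only [encodek, Option.map_some, Part.some_inj] at h2
    have h3 := encode_injective h2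
    simpa using h3
  have : Countable {ψ : List Bool → List Bool // IsFn ψ} := hinj.countable
  exact Set.countable_coe_iff.1 this

theorem isFn_id_en : IsFn (fun σ => σ) := ⟨Primrec.id, fun _ _ h => h⟩

theorem exists_enum : ∃ φ : ℕ → List Bool → List Bool, (∀ e, IsFn (φ e)) ∧
    ∀ ψ, IsFn ψ → ∃ e, φ e = ψ := by
  obtain ⟨φ, hφ⟩ := countable_isFn.exists_eq_range ⟨_, isFn_id_en⟩
  refine ⟨φ, fun e => ?_, fun ψ hψ => ?_⟩
  · have : φ e ∈ {ψ : List Bool → List Bool | IsFn ψ} := by
      rw [hφ]; exact Set.mem_range_self e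
    exact this
  · have : ψ ∈ {ψ : List Bool → List Bool | IsFn ψ} := hψ
    rw [hφ] at this
    exact this

/-- An enumeration of all functionals. -/
noncomputable def enum : ℕ → List Bool → List Bool := exists_enum.choose

theorem isFn_enum (e : ℕ) : IsFn (enum e) := exists_enum.choose_spec.1 e

theorem exists_enum_eq {ψ : List Bool → List Bool} (h : IsFn ψ) : ∃ e, enum e = ψ :=
  exists_enum.choose_spec.2 ψ h

theorem red_iff_enum {X Y : Om} : Red X Y ↔ ∃ e, Maps (enum e) Y X := by
  constructor
  · rintro ⟨φ, hφ, h⟩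
    obtain ⟨e, rfl⟩ := exists_enum_eq hφ
    exact ⟨e, h⟩
  · rintro ⟨e, h⟩
    exact ⟨_, isFn_enum e, h⟩

theorem measurable_eval_en (n : ℕ) : Measurable (fun X : Om => X n) := measurable_pi_apply n

/-- Every property of an initial segment is measurable. -/
theorem measurableSet_pre (Q : List Bool → Prop) (m : ℕ) : MeasurableSet {X : Om | Q (pre X m)} := by
  have hg : Measurable (fun X : Om => fun i : Fin m => X i) :=
    measurable_pi_iff.2 fun i => measurable_pi_apply _
  have h : {X : Om | Q (pre X m)} =
      (fun X : Om => fun i : Fin m => X i) ⁻¹' {g | Q (List.ofFn g)} := by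
    ext X
    simp only [Set.mem_ofPred_eq, Set.mem_preimage]
    have : pre X m = List.ofFn (fun i : Fin m => X i) := by
      apply List.ext_getElem
      · simp
      · intro i h1 h2
        simp [pre]
    rw [this]
  rw [h]
  exact hg (Set.toFinite _).measurableSet

theorem measurableSet_maps (φ : List Bool → List Bool) :
    MeasurableSet {p : Om × Om | Maps φ p.1 p.2} := by
  have h : {p : Om × Om | Maps φ p.1 p.2} =
      (⋂ m : ℕ, ⋃ σ : List Bool, {p : Om × Om | pre p.1 m = σ} ∩
        {p : Om × Om | φ σ = pre p.2 (φ σ).length}) ∩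
      ⋂ n : ℕ, ⋃ m : ℕ, {p : Om × Om | n ≤ (φ (pre p.1 m)).length} := by
    ext p
    simp only [Maps, Set.mem_ofPred_eq, Set.mem_inter_iff, Set.mem_iInter, Set.mem_iUnion,
      exists_eq_left']
  rw [h]
  refine MeasurableSet.inter (MeasurableSet.iInter fun m => MeasurableSet.iUnion fun σ =>
    MeasurableSet.inter ?_ ?_) (MeasurableSet.iInter fun n => MeasurableSet.iUnion fun m => ?_)
  · exact measurable_fst (measurableSet_pre (fun τ => τ = σ) m)
  · exact measurable_snd (measurableSet_pre (fun τ => φ σ = τ) (φ σ).length)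
  · exact measurable_fst (measurableSet_pre (fun τ => n ≤ (φ τ).length) m)

theorem measurableSet_red : MeasurableSet {p : Om × Om | Red p.1 p.2} := by
  have h : {p : Om × Om | Red p.1 p.2} =
      ⋃ e : ℕ, Prod.swap ⁻¹' {p : Om × Om | Maps (enum e) p.1 p.2} := by
    ext p
    simp only [Set.mem_ofPred_eq, Set.mem_iUnion, Set.mem_preimage, Prod.fst_swap, Prod.snd_swap]
    exact red_iff_enum
  rw [h]
  exact MeasurableSet.iUnion fun e => measurable_swap (measurableSet_maps _)

theorem isFn_zero_en : IsFn (fun σ => σ.map fun _ => false) where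
  prim := Primrec.list_map Primrec.id (Primrec.const false).to₂
  mono := fun _ _ h => List.IsPrefix.map _ h

theorem maps_zero_en (X : Om) : Maps (fun σ => σ.map fun _ => false) X (fun _ => false) := by
  constructor
  · intro m
    apply List.ext_getElem
    · simp
    · intro i h1 h2
      simp [pre]
  · intro n
    exact ⟨n, by simp⟩

theorem red_zero_en (X : Om) : Red (fun _ => false) X := ⟨_, isFn_zero_en, maps_zero_en X⟩

open Classical in
/-- Total evaluation of a functional. -/
noncomputable def evalFn (φ : List Bool → List Bool) (B : Om) : Om :=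
  if ∀ n, ∃ m, n ≤ (φ (pre B m)).length then
    fun n => decide (∃ m, (φ (pre B m))[n]? = some true) else fun _ => false

open Classical in
theorem evalFn_maps {φ : List Bool → List Bool} (hφ : IsFn φ) {B : Om}
    (h : ∀ n, ∃ m, n ≤ (φ (pre B m)).length) : Maps φ B (evalFn φ B) := by
  refine ⟨fun m => ?_, h⟩
  rw [evalFn, if_pos h]
  apply List.ext_getElem
  · simp
  · intro i h1 h2
    rw [pre_getElem]
    have key : ∀ m' b, (φ (pre B m'))[i]? = some b → b = (φ (pre B m))[i] := by
      intro m' b hb
      rcases le_total m m' with hm | hm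
      · obtain ⟨ρ, hρ⟩ := hφ.mono _ _ (pre_prefix B hm)
        rw [← hρ, List.getElem?_append_left h1, List.getElem?_eq_getElem h1] at hb
        exact (Option.some.inj hb).symm
      · obtain ⟨ρ, hρ⟩ := hφ.mono _ _ (pre_prefix B hm)
        obtain ⟨hl, hb'⟩ := List.getElem?_eq_some_iff.1 hb
        rw [← hb']
        have : (φ (pre B m))[i]? = some ((φ (pre B m'))[i]) := by
          rw [← hρ, List.getElem?_append_left hl, List.getElem?_eq_getElem hl]
        rw [List.getElem?_eq_getElem h1] at this
        exact (Option.some.inj this).symm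
    cases hb : (φ (pre B m))[i] with
    | true =>
      symm
      rw [decide_eq_true_eq]
      exact ⟨m, by rw [List.getElem?_eq_getElem h1, hb]⟩
    | false =>
      symm
      rw [decide_eq_false_iff_not]
      rintro ⟨m', hm'⟩
      have := key m' true hm'
      rw [hb] at this
      exact Bool.noConfusion this

theorem maps_unique_en {φ : List Bool → List Bool} {X Y Y' : Om} (h : Maps φ X Y)
    (h' : Maps φ X Y') : Y = Y' := by
  funext n
  obtain ⟨m, hm⟩ := h.2 (n + 1)
  have h1 := h.1 m
  have h2 := h'.1 m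
  rw [h1] at h2
  rw [pre_length] at h2
  exact (pre_eq_iff _ _ _).1 h2 n (by omega)

theorem evalFn_eq {φ : List Bool → List Bool} (hφ : IsFn φ) {B Z : Om} (h : Maps φ B Z) :
    evalFn φ B = Z := maps_unique_en (evalFn_maps hφ h.2) h

theorem evalFn_red {φ : List Bool → List Bool} (hφ : IsFn φ) (B : Om) : Red (evalFn φ B) B := by
  by_cases h : ∀ n, ∃ m, n ≤ (φ (pre B m)).length
  · exact ⟨φ, hφ, evalFn_maps hφ h⟩
  · rw [evalFn, if_neg h]
    exact red_zero_en B

open Classical in
theorem measurable_evalFn (φ : List Bool → List Bool) : Measurable (evalFn φ) := by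
  unfold evalFn
  refine Measurable.ite ?_ ?_ measurable_const
  · have h : {B : Om | ∀ n, ∃ m, n ≤ (φ (pre B m)).length} =
        ⋂ n : ℕ, ⋃ m : ℕ, {B : Om | n ≤ (φ (pre B m)).length} := by
      ext B
      simp only [Set.mem_ofPred_eq, Set.mem_iInter, Set.mem_iUnion]
    rw [h]
    exact MeasurableSet.iInter fun n => MeasurableSet.iUnion fun m =>
      measurableSet_pre (fun τ => n ≤ (φ τ).length) m
  · refine measurable_pi_iff.2 fun n => measurable_to_bool ?_
    have h : (fun B : Om => decide (∃ m, (φ (pre B m))[n]? = some true)) ⁻¹' {true} =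
        ⋃ m : ℕ, {B : Om | (φ (pre B m))[n]? = some true} := by
      ext B
      simp only [Set.mem_preimage, Set.mem_singleton_iff, decide_eq_true_eq, Set.mem_iUnion, Set.mem_ofPred_eq]
    rw [h]
    exact MeasurableSet.iUnion fun m => measurableSet_pre (fun τ => (φ τ)[n]? = some true) m

/-- total Borel evaluation of the `e`-th functional; default value when not total -/
theorem exists_ev : ∃ ev : ℕ → Om → Om, (∀ e, Measurable (ev e)) ∧ (∀ e B, Red (ev e B) B) ∧
    (∀ e B Z, Maps (enum e) B Z → ev e B = Z) ∧ ∀ Z B, Red Z B → ∃ e, ev e B = Z := by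
  refine ⟨fun e => evalFn (enum e), fun e => measurable_evalFn _,
    fun e B => evalFn_red (isFn_enum e) B, fun e B Z h => evalFn_eq (isFn_enum e) h, ?_⟩
  intro Z B h
  obtain ⟨e, he⟩ := red_iff_enum.1 h
  exact ⟨e, evalFn_eq (isFn_enum e) he⟩

theorem countable_red (B : Om) : {Z : Om | Red Z B}.Countable := by
  obtain ⟨ev, -, -, -, h⟩ := exists_ev
  refine (Set.countable_range (fun e => ev e B)).mono ?_
  intro Z hZ
  obtain ⟨e, he⟩ := h Z B hZ
  exact ⟨e, he⟩

theorem measurable_jn : Measurable (fun p : Om × Om => jn p.1 p.2) := by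
  refine measurable_pi_iff.2 fun n => ?_
  unfold jn
  by_cases h : n % 2 = 0
  · simp only [h, if_true]
    exact (measurable_eval_en _).comp measurable_fst
  · simp only [h, if_false]
    exact (measurable_eval_en _).comp measurable_snd

end Vale.Agent.P327
end
end

section

section

open Topology Filter Set TopologicalSpace

namespace Vale.Agent.P327

/-- Kuratowski-Ulam, easy direction. -/
theorem kuratowski_ulam_set {S G : Type*} [TopologicalSpace S] [TopologicalSpace G]
    [SecondCountableTopology G] {R : Set (S × G)} (hR : R ∈ residual (S × G)) :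
    ∀ᶠ s in residual S, ∀ᶠ x in residual G, (s, x) ∈ R := by
  obtain ⟨A, hAo, hAd, hAc, hAR⟩ := mem_residual_iff.1 hR
  have key : ∀ U ∈ A, ∀ᶠ s in residual S, ∀ᶠ x in residual G, (s, x) ∈ U := by
    intro U hU
    obtain ⟨B, hBc, hBne, hB⟩ := exists_countable_basis G
    have h1 : ∀ V ∈ B, ∀ᶠ s in residual S, ∃ x ∈ V, (s, x) ∈ U := by
      intro V hV
      have ho : IsOpen {s | ∃ x ∈ V, (s, x) ∈ U} := by
        have : {s | ∃ x ∈ V, (s, x) ∈ U} = Prod.fst '' (U ∩ (univ ×ˢ V)) := by
          ext s
          constructor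
          · rintro ⟨x, hx, hsx⟩
            exact ⟨(s, x), ⟨hsx, by simp [hx]⟩, rfl⟩
          · rintro ⟨⟨s', x⟩, ⟨h1, h2⟩, rfl⟩
            exact ⟨x, by simpa using h2, h1⟩
        rw [this]
        exact isOpenMap_fst _ ((hAo U hU).inter (isOpen_univ.prod (hB.isOpen hV)))
      have hd : Dense {s | ∃ x ∈ V, (s, x) ∈ U} := by
        rw [dense_iff_inter_open]
        intro O hO hOne
        have hVne : V.Nonempty := by
          rw [nonempty_iff_ne_empty]
          rintro rfl
          exact hBne hV
        obtain ⟨⟨s, x⟩, hsx, hU'⟩ := (hAd U hU).inter_open_nonempty (O ×ˢ V)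
          (hO.prod (hB.isOpen hV)) (hOne.prod hVne)
        exact ⟨s, hsx.1, x, hsx.2, hU'⟩
      exact residual_of_dense_open ho hd
    have h2 : ∀ᶠ s in residual S, ∀ V ∈ B, ∃ x ∈ V, (s, x) ∈ U :=
      (eventually_countable_ball hBc).2 h1
    filter_upwards [h2] with s hs
    apply residual_of_dense_open
    · exact (hAo U hU).preimage (Continuous.prodMk_right s)
    · rw [hB.dense_iff]
      intro V hV _
      obtain ⟨x, hx, hsx⟩ := hs V hV
      exact ⟨x, hx, hsx⟩
  have h3 : ∀ᶠ s in residual S, ∀ U ∈ A, ∀ᶠ x in residual G, (s, x) ∈ U :=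
    (eventually_countable_ball hAc).2 key
  filter_upwards [h3] with s hs
  have h4 : ∀ᶠ x in residual G, ∀ U ∈ A, (s, x) ∈ U := (eventually_countable_ball hAc).2 hs
  filter_upwards [h4] with x hx
  exact hAR (by simpa only [mem_sInter] using hx)

/-- A fibrewise involution preserves residual sets. -/
theorem tendsto_residual_skew {S G : Type*} [TopologicalSpace S] [TopologicalSpace G]
    (τ : S → G → G) (hτ : Continuous fun p : S × G => τ p.1 p.2)
    (hinv : ∀ s x, τ s (τ s x) = x) :
    Tendsto (fun p : S × G => τ p.1 p.2) (residual (S × G)) (residual G) := by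
  let h : (S × G) ≃ₜ (S × G) :=
    { toFun := fun p => (p.1, τ p.1 p.2)
      invFun := fun p => (p.1, τ p.1 p.2)
      left_inv := fun p => by simp [hinv]
      right_inv := fun p => by simp [hinv]
      continuous_toFun := continuous_fst.prodMk hτ
      continuous_invFun := continuous_fst.prodMk hτ }
  have ho : IsOpenMap (fun p : S × G => τ p.1 p.2) :=
    isOpenMap_snd.comp h.isOpenMap
  exact tendsto_residual_of_isOpenMap hτ ho

/-- For every set `S`, the points of `S` near which `S` is not everywhere nonmeagre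
form a meagre set. -/
theorem eventually_everywhere_nonmeagre {X : Type*} [TopologicalSpace X]
    [SecondCountableTopology X] (S : Set X) :
    ∀ᶠ x in residual X, x ∈ S → ∃ N, IsOpen N ∧ x ∈ N ∧
      ∀ O, IsOpen O → O ⊆ N → O.Nonempty → ¬ IsMeagre (S ∩ O) := by
  obtain ⟨B, hBc, hBne, hB⟩ := exists_countable_basis X
  let B' := {V ∈ B | IsMeagre (S ∩ V)}
  have hB'c : B'.Countable := hBc.mono (fun V hV => hV.1)
  let O := ⋃₀ B'
  have hO : IsOpen O := isOpen_sUnion fun V hV => hB.isOpen hV.1
  have h1 : IsMeagre (S ∩ O) := by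
    have : S ∩ O = ⋃ V ∈ B', S ∩ V := by
      ext x; simp only [O, mem_inter_iff, mem_sUnion, mem_iUnion]
      constructor
      · rintro ⟨hx, V, hV, hxV⟩; exact ⟨V, hV, hx, hxV⟩
      · rintro ⟨V, hV, hx, hxV⟩; exact ⟨hx, V, hV, hxV⟩
    rw [this]
    have hc : (⋃ V ∈ B', S ∩ V)ᶜ ∈ residual X := by
      rw [compl_iUnion₂]
      exact (countable_bInter_mem hB'c).2 fun V hV => hV.2
    exact hc
  have h2 : IsMeagre (frontier O) := by
    have : (frontier O)ᶜ ∈ residual X := by
      apply residual_of_dense_open isClosed_frontier.isOpen_compl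
      rw [← interior_eq_empty_iff_dense_compl]
      rw [← frontier_compl]
      exact interior_frontier hO.isClosed_compl
    exact this
  filter_upwards [h1, h2] with x hx1 hx2 hxS
  have hxO : x ∉ O := fun h => hx1 ⟨hxS, h⟩
  have hxc : x ∉ closure O := by
    intro h
    apply hx2
    rw [frontier, hO.interior_eq]
    exact ⟨h, hxO⟩
  refine ⟨(closure O)ᶜ, isClosed_closure.isOpen_compl, hxc, ?_⟩
  intro V hV hVN hVne hm
  obtain ⟨y, hy⟩ := hVne
  obtain ⟨V', hV'B, hyV', hV'V⟩ := hB.exists_subset_of_mem_open hy hV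
  have : V' ∈ B' := ⟨hV'B, hm.mono (inter_subset_inter_right _ hV'V)⟩
  exact hVN hy (subset_closure ⟨V', this, hyV'⟩)

/-- easy direction of Kuratowski-Ulam -/
theorem kuratowski_ulam {X Y : Type*} [TopologicalSpace X] [TopologicalSpace Y]
    [SecondCountableTopology Y] {P : X × Y → Prop} (h : ∀ᶠ p in residual (X × Y), P p) :
    ∀ᶠ x in residual X, ∀ᶠ y in residual Y, P (x, y) :=
  kuratowski_ulam_set (R := {p | P p}) h

theorem isOpen_coord (k : ℕ) (b : Bool) : IsOpen {Z : Om | Z k = b} :=
  (continuous_apply (A := fun _ : ℕ => Bool) k).isOpen_preimage ({b} : Set Bool)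
    (isOpen_discrete _)

theorem isOpen_pre (σ : List Bool) (m : ℕ) : IsOpen {Z : Om | pre Z m = σ} := by
  by_cases h : σ.length = m
  · have : {Z : Om | pre Z m = σ} = ⋂ i ∈ Finset.range m, {Z : Om | Z i = σ.getD i false} := by
      ext Z
      simp only [mem_ofPred_eq, mem_iInter, Finset.mem_range]
      constructor
      · rintro h' i hi
        subst h'
        simp [List.getD, pre_getElem, hi]
      · intro h'
        apply List.ext_getElem (by simp [h])
        intro i h1 h2
        rw [pre_getElem]
        have := h' i (by simpa using h1)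
        rw [this]
        simp [List.getD, h2]
    rw [this]
    exact isOpen_biInter_finset fun i _ => isOpen_coord i _
  · have : {Z : Om | pre Z m = σ} = ∅ := by
      ext Z
      simp only [mem_ofPred_eq, mem_empty_iff_false, iff_false]
      rintro rfl
      simp at h
    rw [this]; exact isOpen_empty

theorem exists_pre_subset {U : Set Om} (hU : IsOpen U) {X : Om} (hX : X ∈ U) :
    ∃ m, ∀ Z, pre Z m = pre X m → Z ∈ U := by
  obtain ⟨I, u, hu, hsub⟩ := isOpen_pi_iff.1 hU X hX
  refine ⟨I.sup id + 1, fun Z hZ => hsub ?_⟩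
  intro i hi
  have : i < I.sup id + 1 := Nat.lt_succ_of_le (Finset.le_sup (f := id) hi)
  rw [(pre_eq_iff Z X _).1 hZ i this]
  exact (hu i hi).2

theorem exists_pre_subset₂ {U : Set (Om × Om)} (hU : IsOpen U) {X Y : Om} (hX : (X, Y) ∈ U) :
    ∃ m, ∀ Z Z', pre Z m = pre X m → pre Z' m = pre Y m → (Z, Z') ∈ U := by
  obtain ⟨u, v, hu, hv, hXu, hYv, huv⟩ := isOpen_prod_iff.1 hU X Y hX
  obtain ⟨m, hm⟩ := exists_pre_subset hu hXu
  obtain ⟨n, hn⟩ := exists_pre_subset hv hYv
  refine ⟨max m n, fun Z Z' hZ hZ' => huv ⟨hm Z ?_, hn Z' ?_⟩⟩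
  · rw [pre_eq_iff] at hZ ⊢
    exact fun i hi => hZ i (lt_of_lt_of_le hi (le_max_left _ _))
  · rw [pre_eq_iff] at hZ' ⊢
    exact fun i hi => hZ' i (lt_of_lt_of_le hi (le_max_right _ _))

/-- A Borel map is continuous on a comeagre set. -/
theorem exists_cont_set {F : Om → Om} (hF : Measurable F) :
    ∃ G ∈ residual Om, ∀ X ∈ G, ∀ k, ∃ m, ∀ Z ∈ G, pre Z m = pre X m → F Z k = F X k := by
  have h1 : ∀ (k : ℕ) (b : Bool), ∃ u : Set Om, IsOpen u ∧ {Z | F Z k = b} =ᵇ u := by
    intro k b
    apply MeasurableSet.residualEq_isOpen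
    have : Measurable (fun Z => F Z k) := (measurable_pi_apply k).comp hF
    exact this (measurableSet_singleton b)
  choose u hu hFu using h1
  have h2 : ∀ᶠ Z in residual Om, ∀ k b, (F Z k = b ↔ Z ∈ u k b) := by
    rw [eventually_countable_forall]
    intro k
    rw [eventually_countable_forall]
    intro b
    filter_upwards [Filter.eventuallyEq_set.1 (hFu k b)] with Z hZ
    exact hZ
  refine ⟨_, h2, fun X hX k => ?_⟩
  obtain ⟨m, hm⟩ := exists_pre_subset (hu k (F X k)) ((hX k (F X k)).1 rfl)
  exact ⟨m, fun Z hZ hZX => (hZ k (F X k)).2 (hm Z hZX)⟩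

/-- Every Borel relation is generically open. -/
theorem exists_open_rel {R : Set (Om × Om)} (hR : MeasurableSet R) :
    ∃ U : Set (Om × Om), IsOpen U ∧ ∀ᶠ p in residual (Om × Om), (p ∈ R ↔ p ∈ U) := by
  obtain ⟨u, hu, h⟩ := hR.residualEq_isOpen
  exact ⟨u, hu, Filter.eventuallyEq_set.1 h⟩

theorem exists_open_eq {R : Set Om} (hR : MeasurableSet R) :
    ∃ U : Set Om, IsOpen U ∧ ∀ᶠ p in residual Om, (p ∈ R ↔ p ∈ U) := by
  obtain ⟨u, hu, h⟩ := hR.residualEq_isOpen
  exact ⟨u, hu, Filter.eventuallyEq_set.1 h⟩

theorem om_add_self (X : Om) : X + X = 0 := by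
  funext n
  show xor (X n) (X n) = false
  simp

theorem continuous_sh : Continuous sh := by
  apply continuous_pi
  intro n
  exact continuous_apply _

theorem sh_add (X Y : Om) : sh (X + Y) = sh X + sh Y := rfl

/-! ### Translations -/

/-- Pull back along `(X, Y) ↦ sh X + Y`. -/
theorem residual_shadd {P : Om → Prop} (h : ∀ᶠ X in residual Om, P X) :
    ∀ᶠ p in residual (Om × Om), P (sh p.1 + p.2) := by
  have := tendsto_residual_skew (S := Om) (G := Om) (fun X Y => sh X + Y)
    ((continuous_sh.comp continuous_fst).add continuous_snd)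
    (fun X Y => by rw [← add_assoc, om_add_self, zero_add])
  exact this.eventually h

theorem residual_shadd' {P : Om → Prop} (h : ∀ᶠ X in residual Om, P X) :
    ∀ᶠ p in residual (Om × Om), P (sh p.1 + p.2 + p.1) := by
  have := tendsto_residual_skew (S := Om) (G := Om) (fun X Y => sh X + Y + X)
    (((continuous_sh.comp continuous_fst).add continuous_snd).add continuous_fst)
    (fun X Y => by
      have : sh X + (sh X + Y + X) + X = (sh X + sh X) + Y + (X + X) := by abel
      rw [this, om_add_self, om_add_self, zero_add, add_zero])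
  exact this.eventually h

/-! ### Cylinders -/

def cyl (σ : List Bool) : Set Om := {X | pre X σ.length = σ}

theorem isOpen_cyl (σ : List Bool) : IsOpen (cyl σ) := isOpen_pre σ _

/-- The real extending `σ` by zeros. -/
def ext0 (σ : List Bool) : Om := fun n => σ.getD n false

theorem pre_ext0 (σ : List Bool) : pre (ext0 σ) σ.length = σ := by
  apply List.ext_getElem (by simp)
  intro i h1 h2
  rw [pre_getElem]
  simp [ext0, List.getD, h2]

theorem ext0_mem_cyl (σ : List Bool) : ext0 σ ∈ cyl σ := pre_ext0 σ

theorem cyl_subset_of_pre {X : Om} {n : ℕ} {σ : List Bool} (h : pre X n <+: σ) {Z : Om}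
    (hZ : Z ∈ cyl σ) : pre Z n = pre X n := by
  have hZ' : pre Z σ.length = σ := hZ
  have h1 : n ≤ σ.length := by simpa using h.length_le
  rw [← pre_take Z σ.length n h1, hZ']
  have := List.prefix_iff_eq_take.1 h
  simpa using this.symm

theorem everywhere_nonmeagre (S : Set Om) : ∀ᶠ r in residual Om, r ∈ S →
    ∃ n, ∀ σ : List Bool, pre r n <+: σ → ¬ IsMeagre (S ∩ cyl σ) := by
  filter_upwards [eventually_everywhere_nonmeagre S] with r hr hrS
  obtain ⟨N, hN, hrN, h⟩ := hr hrS
  obtain ⟨m, hm⟩ := exists_pre_subset hN hrN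
  refine ⟨m, fun σ hσ => h _ (isOpen_cyl σ) ?_ ⟨_, ext0_mem_cyl σ⟩⟩
  intro Z hZ
  exact hm Z (cyl_subset_of_pre hσ hZ)

/-- A Borel map is generically continuous. -/
theorem generic_continuity {F : Om → Om} (hF : Measurable F) :
    ∀ᶠ X in residual Om, ∀ k, ∃ n, ∀ᶠ X' in residual Om, pre X' n = pre X n → F X' k = F X k := by
  obtain ⟨G, hG, h⟩ := exists_cont_set hF
  filter_upwards [hG] with X hX k
  obtain ⟨m, hm⟩ := h X hX k
  refine ⟨m, ?_⟩
  filter_upwards [hG] with Z hZ
  exact hm Z hZ

theorem generic_rel {R : Set (Om × Om)} (hR : MeasurableSet R) :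
    ∀ᶠ p in residual (Om × Om), p ∈ R → ∃ n, ∀ᶠ p' in residual (Om × Om),
      pre p'.1 n = pre p.1 n → pre p'.2 n = pre p.2 n → p' ∈ R := by
  obtain ⟨U, hU, h⟩ := exists_open_rel hR
  filter_upwards [h] with p hp hpR
  obtain ⟨m, hm⟩ := exists_pre_subset₂ hU (X := p.1) (Y := p.2) (hp.1 hpR)
  refine ⟨m, ?_⟩
  filter_upwards [h] with q hq h1 h2
  exact hq.2 (hm _ _ h1 h2)

theorem isMeagre_singleton (x : Om) : IsMeagre ({x} : Set Om) := by
  have : ({x} : Set Om)ᶜ ∈ residual Om := by
    apply residual_of_dense_open isClosed_singleton.isOpen_compl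
    rw [dense_iff_inter_open]
    intro U hU hne
    obtain ⟨y, hy⟩ := hne
    by_cases hxy : y = x
    · subst hxy
      obtain ⟨m, hm⟩ := exists_pre_subset hU hy
      refine ⟨y + unit m, hm _ ?_, ?_⟩
      · rw [pre_eq_iff]
        intro i hi
        show xor (y i) (unit m i) = y i
        simp [unit, hi.ne]
      · intro h
        have : (y + unit m) m = y m := by rw [h]
        have h2 : xor (y m) (unit m m) = y m := this
        simp [unit] at h2
    · exact ⟨y, hy, hxy⟩
  exact this

theorem isMeagre_of_countable {S : Set Om} (hS : S.Countable) : IsMeagre S := by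
  have : S = ⋃ x ∈ S, {x} := by ext; simp
  rw [this]
  have hc : (⋃ x ∈ S, ({x} : Set Om))ᶜ ∈ residual Om := by
    rw [compl_iUnion₂]
    exact (countable_bInter_mem hS).2 fun x _ => isMeagre_singleton x
  exact hc

/-- A nonmeagre set meets every comeagre set. -/
theorem exists_mem_of_not_isMeagre {X : Type*} [TopologicalSpace X] {S : Set X}
    (hS : ¬ IsMeagre S) {P : X → Prop} (h : ∀ᶠ x in residual X, P x) : ∃ x ∈ S, P x := by
  by_contra hcon
  push Not at hcon
  apply hS
  show Sᶜ ∈ residual X
  filter_upwards [h] with x hx hxS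
  exact hcon x hxS hx

end Vale.Agent.P327
end
end

section

section

/-! Functionals: composition, projections, pairing and the search lemma. -/

namespace Vale.Agent.P327

/-! ### Basic facts -/

theorem IsFn.comp {φ ψ : List Bool → List Bool} (hφ : IsFn φ) (hψ : IsFn ψ) : IsFn (φ ∘ ψ) :=
  ⟨hφ.prim.comp hψ.prim, fun _ _ h => hφ.mono _ _ (hψ.mono _ _ h)⟩

theorem Maps.comp {φ ψ : List Bool → List Bool} {X Y Z : Om} (hφm : IsFn φ) (hψ : Maps ψ X Y)
    (hφ : Maps φ Y Z) : Maps (φ ∘ ψ) X Z := by
  refine ⟨fun m => ?_, fun n => ?_⟩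
  · simp only [Function.comp_apply]
    rw [hψ.1 m]
    exact hφ.1 _
  · obtain ⟨k, hk⟩ := hφ.2 n
    obtain ⟨m, hm⟩ := hψ.2 k
    refine ⟨m, hk.trans ?_⟩
    simp only [Function.comp_apply]
    rw [hψ.1 m]
    exact (hφm.mono _ _ (pre_prefix Y hm)).length_le

theorem isFn_id : IsFn id := ⟨Primrec.id, fun _ _ h => h⟩

theorem maps_id (X : Om) : Maps id X X := ⟨fun m => by simp, fun n => ⟨n, by simp⟩⟩

theorem Red.refl (X : Om) : Red X X := ⟨id, isFn_id, maps_id X⟩

theorem Red.trans {X Y Z : Om} (h : Red X Y) (h' : Red Y Z) : Red X Z := by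
  obtain ⟨φ, hφ, hφm⟩ := h
  obtain ⟨ψ, hψ, hψm⟩ := h'
  exact ⟨φ ∘ ψ, hφ.comp hψ, Maps.comp hφ hψm hφm⟩

/-! ### Prefixes of mapped ranges -/

theorem range_map_prefix {α : Type*} {a b : ℕ} {f g : ℕ → α} (hab : a ≤ b)
    (h : ∀ i < a, f i = g i) : (List.range a).map f <+: (List.range b).map g := by
  have h1 : (List.range a).map f = (List.range a).map g :=
    List.map_congr_left fun i hi => h i (List.mem_range.1 hi)
  rw [h1]
  have h2 : (List.range a).map g = ((List.range b).map g).take a := by
    rw [← List.map_take, List.take_range, min_eq_left hab]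
  rw [h2]
  exact List.take_prefix _ _

theorem prefix_getD {σ τ : List Bool} (h : σ <+: τ) {i : ℕ} (hi : i < σ.length) (d : Bool) :
    σ.getD i d = τ.getD i d := by
  obtain ⟨t, rfl⟩ := h
  rw [List.getD_append _ _ _ _ hi]

theorem pre_getD (X : Om) {n i : ℕ} (hi : i < n) (d : Bool) : (pre X n).getD i d = X i := by
  rw [List.getD_eq_getElem?_getD, pre_getElem?, if_pos hi]
  rfl

theorem prefix_take {σ τ : List Bool} (h : σ <+: τ) {i : ℕ} (hi : i ≤ σ.length) :
    σ.take i = τ.take i := by
  obtain ⟨t, rfl⟩ := h
  rw [List.take_append_of_le_length hi]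

/-! ### Projections -/

/-- left projection on strings -/
def projL (σ : List Bool) : List Bool :=
  (List.range ((σ.length + 1) / 2)).map fun i => σ.getD (2 * i) false

/-- right projection on strings -/
def projR (σ : List Bool) : List Bool :=
  (List.range (σ.length / 2)).map fun i => σ.getD (2 * i + 1) false

theorem projL_fn : IsFn projL := by
  refine ⟨?_, fun σ τ h => ?_⟩
  · refine Primrec.list_map (Primrec.list_range.comp
      (Primrec.nat_div.comp (Primrec.succ.comp Primrec.list_length) (Primrec.const 2))) ?_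
    exact (Primrec.list_getD false).comp Primrec.fst
      (Primrec.nat_mul.comp (Primrec.const 2) Primrec.snd)
  · have hl := h.length_le
    exact range_map_prefix (by omega) fun i hi => prefix_getD h (by omega) _

theorem projR_fn : IsFn projR := by
  refine ⟨?_, fun σ τ h => ?_⟩
  · refine Primrec.list_map (Primrec.list_range.comp
      (Primrec.nat_div.comp Primrec.list_length (Primrec.const 2))) ?_
    exact (Primrec.list_getD false).comp Primrec.fst
      (Primrec.succ.comp (Primrec.nat_mul.comp (Primrec.const 2) Primrec.snd))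
  · have hl := h.length_le
    exact range_map_prefix (by omega) fun i hi => prefix_getD h (by omega) _

theorem projL_maps (X Y : Om) : Maps projL (jn X Y) X := by
  refine ⟨fun m => ?_, fun n => ⟨2 * n, by simp only [projL, List.getD_eq_getElem?_getD, pre_length, List.length_map, List.length_range]; omega⟩⟩
  have h1 : (projL (pre (jn X Y) m)).length = (m + 1) / 2 := by simp only [projL, List.getD_eq_getElem?_getD, pre_length, List.length_map, List.length_range]
  rw [h1]
  unfold projL pre
  rw [List.length_map, List.length_range]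
  refine List.map_congr_left fun i hi => ?_
  have hi' := List.mem_range.1 hi
  have := pre_getD (jn X Y) (n := m) (i := 2 * i) (by omega) false
  rw [pre] at this
  rw [this]
  simp [jn]

theorem projR_maps (X Y : Om) : Maps projR (jn X Y) Y := by
  refine ⟨fun m => ?_, fun n => ⟨2 * n, by simp only [projR, List.getD_eq_getElem?_getD, pre_length, ne_eq, OfNat.ofNat_ne_zero, not_false_eq_true, mul_div_cancel_left₀, List.length_map, List.length_range, Std.le_refl]⟩⟩
  have h1 : (projR (pre (jn X Y) m)).length = m / 2 := by simp only [projR, List.getD_eq_getElem?_getD, pre_length, List.length_map, List.length_range]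
  rw [h1]
  unfold projR pre
  rw [List.length_map, List.length_range]
  refine List.map_congr_left fun i hi => ?_
  have hi' := List.mem_range.1 hi
  have := pre_getD (jn X Y) (n := m) (i := 2 * i + 1) (by omega) false
  rw [pre] at this
  rw [this]
  have h2 : (2 * i + 1) % 2 = 1 := by omega
  have h3 : (2 * i + 1) / 2 = i := by omega
  simp [jn, h2, h3]

theorem exists_proj_left : ∃ φ, IsFn φ ∧ ∀ X Y, Maps φ (jn X Y) X :=
  ⟨projL, projL_fn, projL_maps⟩

theorem exists_proj_right : ∃ φ, IsFn φ ∧ ∀ X Y, Maps φ (jn X Y) Y :=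
  ⟨projR, projR_fn, projR_maps⟩

/-! ### Joins of functionals -/

/-- join of strings -/
def jnS (σ τ : List Bool) : List Bool :=
  (List.range (2 * min σ.length τ.length)).map fun i =>
    if i % 2 = 0 then σ.getD (i / 2) false else τ.getD (i / 2) false

theorem jnS_length (σ τ : List Bool) : (jnS σ τ).length = 2 * min σ.length τ.length := by
  simp only [jnS, List.getD_eq_getElem?_getD, List.length_map, List.length_range]

theorem jnS_prim : Primrec₂ jnS := by
  unfold jnS
  refine Primrec.list_map (Primrec.list_range.comp (Primrec.nat_mul.comp (Primrec.const 2)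
    (Primrec.nat_min.comp (Primrec.list_length.comp Primrec.fst)
      (Primrec.list_length.comp Primrec.snd)))) ?_
  have hdiv : Primrec fun p : (List Bool × List Bool) × ℕ => p.2 / 2 :=
    Primrec.nat_div.comp Primrec.snd (Primrec.const 2)
  refine Primrec.ite (Primrec.eq.comp (Primrec.nat_mod.comp Primrec.snd (Primrec.const 2))
    (Primrec.const 0)) ?_ ?_
  · exact (Primrec.list_getD false).comp (Primrec.fst.comp Primrec.fst) hdiv
  · exact (Primrec.list_getD false).comp (Primrec.snd.comp Primrec.fst) hdiv

theorem jnS_mono {σ σ' τ τ' : List Bool} (h : σ <+: σ') (h' : τ <+: τ') :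
    jnS σ τ <+: jnS σ' τ' := by
  have hl := h.length_le
  have hl' := h'.length_le
  refine range_map_prefix (by omega) fun i hi => ?_
  split_ifs
  · exact prefix_getD h (by omega) _
  · exact prefix_getD h' (by omega) _

theorem jnS_pre (X Y : Om) (m n : ℕ) : jnS (pre X m) (pre Y n) = pre (jn X Y) (2 * min m n) := by
  unfold jnS
  rw [pre_length, pre_length]
  conv_rhs => rw [pre]
  refine List.map_congr_left fun i hi => ?_
  have hi' := List.mem_range.1 hi
  unfold jn
  split_ifs
  · exact pre_getD X (by omega) _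
  · exact pre_getD Y (by omega) _

theorem exists_pair {α β : List Bool → List Bool} (hα : IsFn α) (hβ : IsFn β) :
    ∃ φ, IsFn φ ∧ ∀ Z A B, Maps α Z A → Maps β Z B → Maps φ Z (jn A B) := by
  refine ⟨fun σ => jnS (α σ) (β σ), ⟨jnS_prim.comp hα.prim hβ.prim, fun σ τ h =>
    jnS_mono (hα.mono _ _ h) (hβ.mono _ _ h)⟩, fun Z A B hA hB => ⟨fun m => ?_, fun n => ?_⟩⟩
  · simp only
    rw [jnS_length, hA.1 m, hB.1 m, jnS_pre]
    simp only [pre_length]
  · obtain ⟨a, ha⟩ := hA.2 n
    obtain ⟨b, hb⟩ := hB.2 n
    refine ⟨max a b, ?_⟩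
    have h1 := (hα.mono _ _ (pre_prefix Z (le_max_left a b))).length_le
    have h2 := (hβ.mono _ _ (pre_prefix Z (le_max_right a b))).length_le
    simp only [jnS_length]
    omega

/-! ### Search -/

/-- first success of `f` below `n` -/
def srch (f : ℕ → Option Bool) (n : ℕ) : Option Bool :=
  Nat.rec none (fun s acc => acc <|> f s) n

@[simp] theorem srch_zero (f : ℕ → Option Bool) : srch f 0 = none := rfl

theorem srch_succ (f : ℕ → Option Bool) (n : ℕ) : srch f (n + 1) = (srch f n <|> f n) := rfl

theorem srch_mono {f : ℕ → Option Bool} {n m : ℕ} (h : n ≤ m) {b : Bool}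
    (hb : srch f n = some b) : srch f m = some b := by
  induction h with
  | refl => exact hb
  | step _ ih => rw [srch_succ, ih]; rfl

theorem srch_congr {f g : ℕ → Option Bool} {n : ℕ} (h : ∀ s < n, f s = g s) :
    srch f n = srch g n := by
  induction n with
  | zero => rfl
  | succ n ih => rw [srch_succ, srch_succ, ih fun s hs => h s (by omega), h n (by omega)]

theorem srch_sound {f : ℕ → Option Bool} {n : ℕ} {b : Bool} (hb : srch f n = some b) :
    ∃ s < n, f s = some b := by
  induction n with
  | zero => simp at hb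
  | succ n ih =>
    rw [srch_succ] at hb
    cases h : srch f n with
    | none =>
      rw [h] at hb
      exact ⟨n, by omega, by simpa using hb⟩
    | some c =>
      rw [h] at hb
      have hcb : c = b := by simpa using hb
      obtain ⟨s, hs, hs'⟩ := ih (by rw [h, hcb])
      exact ⟨s, by omega, hs'⟩

theorem srch_complete {f : ℕ → Option Bool} {n s : ℕ} {b : Bool} (hs : s < n)
    (hb : f s = some b) : ∃ c, srch f n = some c := by
  have h1 : ∃ c, srch f (s + 1) = some c := by
    rw [srch_succ]
    cases h : srch f s with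
    | none => exact ⟨b, by simpa using hb⟩
    | some c => exact ⟨c, rfl⟩
  obtain ⟨c, hc⟩ := h1
  exact ⟨c, srch_mono hs hc⟩

/-- length of the longest initial segment of `range n` on which `p` holds -/
def cnt (p : ℕ → Bool) (n : ℕ) : ℕ :=
  Nat.rec 0 (fun k c => if c = k ∧ p k = true then k + 1 else c) n

@[simp] theorem cnt_zero (p : ℕ → Bool) : cnt p 0 = 0 := rfl

theorem cnt_succ (p : ℕ → Bool) (n : ℕ) :
    cnt p (n + 1) = if cnt p n = n ∧ p n = true then n + 1 else cnt p n := rfl

theorem cnt_le (p : ℕ → Bool) (n : ℕ) : cnt p n ≤ n := by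
  induction n with
  | zero => simp
  | succ n ih => rw [cnt_succ]; split_ifs <;> omega

theorem cnt_spec (p : ℕ → Bool) (n : ℕ) : ∀ i < cnt p n, p i = true := by
  induction n with
  | zero => intro i hi; simp at hi
  | succ n ih =>
    intro i hi
    rw [cnt_succ] at hi
    split_ifs at hi with h
    · rcases Nat.lt_succ_iff_lt_or_eq.1 hi with h1 | h1
      · exact ih i (by omega)
      · rw [h1]; exact h.2
    · exact ih i hi

theorem le_cnt {p : ℕ → Bool} {n k : ℕ} (hk : k ≤ n) (h : ∀ i < k, p i = true) :
    k ≤ cnt p n := by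
  induction n generalizing k with
  | zero => simpa using hk
  | succ n ih =>
    rw [cnt_succ]
    rcases Nat.lt_or_ge n k with h1 | h1
    · have h2 : k = n + 1 := by omega
      have h3 : n ≤ cnt p n := ih le_rfl fun i hi => h i (by omega)
      have h4 := cnt_le p n
      rw [if_pos ⟨by omega, h n (by omega)⟩]
      omega
    · have h3 := ih h1 h
      split_ifs <;> omega

/-- Build a string functional from a monotone bitwise partial approximation. -/
def ofBits (g : List Bool → ℕ → Option Bool) (σ : List Bool) : List Bool :=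
  (List.range (cnt (fun i => (g σ i).isSome) σ.length)).map fun i => (g σ i).getD false

theorem ofBits_prim {g : List Bool → ℕ → Option Bool} (hg : Primrec₂ g) : Primrec (ofBits g) := by
  unfold ofBits
  refine Primrec.list_map (Primrec.list_range.comp ?_) ?_
  · refine Primrec.nat_rec' (h := fun (σ : List Bool) (p : ℕ × ℕ) =>
      if p.2 = p.1 ∧ (g σ p.1).isSome = true then p.1 + 1 else p.2)
      Primrec.list_length (Primrec.const 0) ?_
    refine Primrec.ite ?_ (Primrec.succ.comp (Primrec.fst.comp Primrec.snd))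
      (Primrec.snd.comp Primrec.snd)
    refine PrimrecPred.and ?_ ?_
    · exact Primrec.eq.comp (Primrec.snd.comp Primrec.snd) (Primrec.fst.comp Primrec.snd)
    · exact Primrec.eq.comp (Primrec.option_isSome.comp
        (hg.comp Primrec.fst (Primrec.fst.comp Primrec.snd))) (Primrec.const true)
  · exact Primrec.option_getD.comp hg (Primrec.const false)

theorem ofBits_fn {g : List Bool → ℕ → Option Bool} (hg : Primrec₂ g)
    (hmono : ∀ σ τ i b, σ <+: τ → g σ i = some b → g τ i = some b) : IsFn (ofBits g) := by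
  refine ⟨ofBits_prim hg, fun σ τ h => ?_⟩
  have hsome : ∀ i < cnt (fun i => (g σ i).isSome) σ.length, g σ i = g τ i := by
    intro i hi
    obtain ⟨b, hb⟩ := Option.isSome_iff_exists.1 (cnt_spec _ _ i hi)
    rw [hb, hmono σ τ i b h hb]
  refine range_map_prefix ?_ fun i hi => by rw [hsome i hi]
  refine le_cnt ((cnt_le _ _).trans h.length_le) fun i hi => ?_
  rw [← hsome i hi]
  exact cnt_spec _ _ i hi

theorem ofBits_maps {g : List Bool → ℕ → Option Bool}
    (hmono : ∀ σ τ i b, σ <+: τ → g σ i = some b → g τ i = some b) {X Y : Om}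
    (sound : ∀ m i b, g (pre Y m) i = some b → X i = b)
    (complete : ∀ i, ∃ m b, g (pre Y m) i = some b) : Maps (ofBits g) Y X := by
  refine ⟨fun m => ?_, fun n => ?_⟩
  · have hlen : (ofBits g (pre Y m)).length = cnt (fun i => (g (pre Y m) i).isSome) m := by
      simp [ofBits]
    rw [hlen]
    unfold ofBits
    conv_rhs => rw [pre]
    rw [pre_length]
    refine List.map_congr_left fun i hi => ?_
    obtain ⟨b, hb⟩ := Option.isSome_iff_exists.1 (cnt_spec _ _ i (List.mem_range.1 hi))
    rw [hb, sound m i b hb]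
    rfl
  · choose m b hmb using complete
    let M := max n ((Finset.range n).sup m)
    refine ⟨M, ?_⟩
    have hlen : (ofBits g (pre Y M)).length = cnt (fun i => (g (pre Y M) i).isSome) M := by
      simp [ofBits]
    rw [hlen]
    refine le_cnt (le_max_left _ _) fun i hi => ?_
    have h1 : m i ≤ M :=
      (Finset.le_sup (f := m) (Finset.mem_range.2 hi)).trans (le_max_right _ _)
    rw [hmono _ _ i (b i) (pre_prefix Y h1) (hmb i)]
    rfl

/-- the bit approximation attached to a search -/
def srchBits (chk : List Bool × ℕ × ℕ → Option Bool) (σ : List Bool) (x : ℕ) : Option Bool :=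
  srch (fun s => chk (σ.take s.unpair.1, x, s.unpair.2)) (σ.length + 1)

theorem srchBits_prim {chk : List Bool × ℕ × ℕ → Option Bool} (hp : Primrec chk) :
    Primrec₂ (srchBits chk) := by
  refine Primrec.nat_rec' (h := fun (a : List Bool × ℕ) (p : ℕ × Option Bool) =>
    (p.2 <|> chk (a.1.take p.1.unpair.1, a.2, p.1.unpair.2)))
    (Primrec.succ.comp (Primrec.list_length.comp Primrec.fst)) (Primrec.const none) ?_
  refine Primrec.option_orElse.comp (Primrec.snd.comp Primrec.snd) (hp.comp ?_)
  have hs : Primrec fun p : (List Bool × ℕ) × ℕ × Option Bool => p.2.1 :=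
    Primrec.fst.comp Primrec.snd
  refine Primrec.pair ?_ (Primrec.pair (Primrec.snd.comp Primrec.fst) ?_)
  · exact Primrec.list_take.comp (Primrec.fst.comp (Primrec.unpair.comp hs))
      (Primrec.fst.comp Primrec.fst)
  · exact Primrec.snd.comp (Primrec.unpair.comp hs)

theorem srchBits_mono (chk : List Bool × ℕ × ℕ → Option Bool) (σ τ : List Bool) (i : ℕ) (b : Bool)
    (h : σ <+: τ) (hb : srchBits chk σ i = some b) : srchBits chk τ i = some b := by
  unfold srchBits at *
  have h1 : srch (fun s => chk (σ.take s.unpair.1, i, s.unpair.2)) (σ.length + 1)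
      = srch (fun s => chk (τ.take s.unpair.1, i, s.unpair.2)) (σ.length + 1) := by
    refine srch_congr fun s hs => ?_
    have h2 : s.unpair.1 ≤ σ.length := (Nat.unpair_left_le s).trans (by omega)
    rw [prefix_take h h2]
  rw [h1] at hb
  have h3 := h.length_le
  exact srch_mono (by omega) hb

/-- Main tool to prove reductions. -/
theorem red_of_search {X Y : Om} (chk : List Bool × ℕ × ℕ → Option Bool) (hp : Primrec chk)
    (sound : ∀ m x w b, chk (pre Y m, x, w) = some b → X x = b)
    (complete : ∀ x, ∃ m w b, chk (pre Y m, x, w) = some b) : Red X Y := by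
  refine ⟨ofBits (srchBits chk), ofBits_fn (srchBits_prim hp) (srchBits_mono chk),
    ofBits_maps (srchBits_mono chk) (fun m i b hb => ?_) fun i => ?_⟩
  · unfold srchBits at hb
    obtain ⟨s, hs, hsb⟩ := srch_sound hb
    rw [pre_length] at hs
    have h2 : s.unpair.1 ≤ m := (Nat.unpair_left_le s).trans (by omega)
    rw [pre_take Y m _ h2] at hsb
    exact sound _ _ _ _ hsb
  · obtain ⟨m, w, b, hb⟩ := complete i
    refine ⟨Nat.pair m w, ?_⟩
    unfold srchBits
    refine srch_complete (s := Nat.pair m w) (b := b) (by simp) ?_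
    simp only [Nat.unpair_pair]
    rw [pre_take Y _ m (Nat.left_le_pair m w)]
    exact hb

theorem red_of_tt {X Y : Om} (q : ℕ → List ℕ) (hq : Primrec q) (h : ℕ × List Bool → Bool)
    (hh : Primrec h) (e : ∀ n, X n = h (n, (q n).map Y)) : Red X Y := by
  let bd : ℕ → ℕ := fun n => (q n).foldr max 0
  have hbd : ∀ n, ∀ i ∈ q n, i ≤ bd n := by
    intro n
    have : ∀ l : List ℕ, ∀ i ∈ l, i ≤ l.foldr max 0 := by
      intro l
      induction l with
      | nil => simp
      | cons a l ih =>
        intro i hi
        rcases List.mem_cons.1 hi with h1 | h1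
        · rw [h1]; exact le_max_left _ _
        · exact (ih i h1).trans (le_max_right _ _)
    exact this (q n)
  have hbdp : Primrec bd := by
    refine Primrec.list_foldr (h := fun _ (p : ℕ × ℕ) => max p.1 p.2) hq (Primrec.const 0) ?_
    exact Primrec.nat_max.comp (Primrec.fst.comp Primrec.snd) (Primrec.snd.comp Primrec.snd)
  have key : ∀ m n, bd n < m → h (n, (q n).map fun i => (pre Y m).getD i false) = X n := by
    intro m n hm
    rw [e n]
    congr 2
    refine List.map_congr_left fun i hi => ?_
    exact pre_getD Y ((hbd n i hi).trans_lt hm) _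
  refine red_of_search (fun p => if bd p.2.1 < p.1.length then
    some (h (p.2.1, (q p.2.1).map fun i => p.1.getD i false)) else none) ?_ ?_ ?_
  · have hx : Primrec fun p : List Bool × ℕ × ℕ => p.2.1 := Primrec.fst.comp Primrec.snd
    refine Primrec.ite ?_ ?_ (Primrec.const none)
    · exact Primrec.nat_lt.comp (hbdp.comp hx) (Primrec.list_length.comp Primrec.fst)
    · refine Primrec.option_some.comp (hh.comp (Primrec.pair hx ?_))
      refine Primrec.list_map (hq.comp hx) ?_
      exact (Primrec.list_getD false).comp (Primrec.fst.comp Primrec.fst) Primrec.snd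
  · intro m x w b hb
    simp only [pre_length] at hb
    split_ifs at hb with h1
    rw [key m x h1] at hb
    exact Option.some.inj hb
  · intro x
    refine ⟨bd x + 1, 0, X x, ?_⟩
    simp only [pre_length]
    rw [if_pos (by omega), key (bd x + 1) x (by omega)]

end Vale.Agent.P327
end
end

section

section

/-! Cone avoidance for Baire category. -/

open Topology

namespace Vale.Agent.P327

/-- Only countably many functions between `Primcodable` types are primitive recursive. -/
theorem countable_primrec {α β : Type*} [Primcodable α] [Primcodable β] :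
    Countable {f : α → β // Primrec f} := by
  have h : ∀ f : {f : α → β // Primrec f}, ∃ c : Nat.Partrec.Code,
      c.eval = fun n => Part.bind (Encodable.decode (α := α) n) fun a =>
        ((f.1 a : Part β)).map Encodable.encode := by
    intro f
    exact Nat.Partrec.Code.exists_code.1 (f.2.to_comp : Computable f.1)
  choose c hc using h
  refine Function.Injective.countable (f := c) fun f g hfg => ?_
  apply Subtype.ext
  funext a
  have h1 := congrFun (hc f) (Encodable.encode a)
  have h2 := congrFun (hc g) (Encodable.encode a)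
  rw [hfg, h2] at h1
  simp only [Encodable.encodek, Part.coe_some, Part.bind_some, Part.map_some,
    Part.some_inj, Encodable.encode_inj] at h1
  exact h1.symm

theorem countable_isFn_sub : Countable {φ : List Bool → List Bool // IsFn φ} := by
  have := countable_primrec (α := List Bool) (β := List Bool)
  exact Function.Injective.countable
    (f := fun φ : {φ : List Bool → List Bool // IsFn φ} =>
      (⟨φ.1, φ.2.prim⟩ : {f : List Bool → List Bool // Primrec f}))
    fun φ ψ h => Subtype.ext (congrArg (fun f => f.1) h)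

theorem exists_pre_of_mem_nhds {s : Om} {U : Set Om} (h : U ∈ 𝓝 s) :
    ∃ n, ∀ t : Om, pre t n = pre s n → t ∈ U := by
  obtain ⟨V, ⟨x, n, rfl⟩, hs, hV⟩ :=
    (PiNat.isTopologicalBasis_cylinders (fun _ : ℕ => Bool)).mem_nhds_iff.1 h
  refine ⟨n, fun t ht => hV ?_⟩
  rw [PiNat.mem_cylinder_iff] at hs ⊢
  intro i hi
  rw [(pre_eq_iff t s n).1 ht i hi, hs i hi]

theorem pre_nhds (s : Om) (n : ℕ) : {t : Om | pre t n = pre s n} ∈ 𝓝 s := by
  have h := (PiNat.isOpen_cylinder (fun _ : ℕ => Bool) s n).mem_nhds (PiNat.self_mem_cylinder s n)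
  refine Filter.mem_of_superset h fun t ht => ?_
  exact (pre_eq_iff t s n).2 fun i hi => PiNat.mem_cylinder_iff.1 ht i hi

/-- If a string functional sends `jn A s` to `B` for a set of `s` dense in a cylinder, then `B` is
reducible to `A`. -/
theorem red_of_dense {A B : Om} {φ : List Bool → List Bool} (hφ : IsFn φ) (σ₀ : List Bool)
    (hd : ∀ τ : List Bool, σ₀ <+: τ → ∃ s : Om, pre s τ.length = τ ∧ Maps φ (jn A s) B) :
    Red B A := by
  classical
  refine red_of_search (fun p => ((Encodable.decode p.2.2 : Option (List Bool))).bind fun τ =>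
    if τ.take σ₀.length = σ₀ then (φ (jnS p.1 τ))[p.2.1]? else none) ?_ ?_ ?_
  · refine Primrec.option_bind (Primrec.decode.comp (Primrec.snd.comp Primrec.snd)) ?_
    refine Primrec.ite ?_ ?_ (Primrec.const none)
    · exact Primrec.eq.comp (Primrec.list_take.comp (Primrec.const _) Primrec.snd)
        (Primrec.const _)
    · refine Primrec.list_getElem?.comp (hφ.prim.comp (jnS_prim.comp ?_ Primrec.snd)) ?_
      · exact Primrec.fst.comp Primrec.fst
      · exact Primrec.fst.comp (Primrec.snd.comp Primrec.fst)
  · intro m x w b hb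
    obtain ⟨τ, _, hτ⟩ := Option.bind_eq_some_iff.1 hb
    split_ifs at hτ with h1
    have h2 : σ₀ <+: τ := by rw [← h1]; exact List.take_prefix _ _
    obtain ⟨s, hs, hm⟩ := hd τ h2
    have h3 : jnS (pre A m) τ = pre (jn A s) (2 * min m τ.length) := by
      conv_lhs => rw [← hs]
      exact jnS_pre A s m τ.length
    simp only [h3] at hτ
    rw [hm.1, pre_getElem?] at hτ
    split_ifs at hτ with h4
    exact Option.some.inj hτ
  · intro x
    obtain ⟨s, hs, hm⟩ := hd σ₀ List.prefix_rfl
    obtain ⟨m₀, hm₀⟩ := hm.2 (x + 1)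
    let m := max m₀ σ₀.length
    refine ⟨m, Encodable.encode (pre s m), B x, ?_⟩
    simp only [Encodable.encodek, Option.bind_some]
    have h1 : (pre s m).take σ₀.length = σ₀ := by
      rw [pre_take s m _ (le_max_right _ _), hs]
    rw [if_pos h1, jnS_pre, min_self]
    have h2 : m₀ ≤ 2 * m := by
      have := le_max_left m₀ σ₀.length
      omega
    have h3 := (hφ.mono _ _ (pre_prefix (jn A s) h2)).length_le
    rw [hm.1, pre_getElem?, if_pos (by omega)]

theorem not_meagre_red {A B : Om} (h : ¬ IsMeagre {s : Om | Red B (jn A s)}) : Red B A := by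
  have h1 : ∃ φ : {φ : List Bool → List Bool // IsFn φ},
      ¬ IsMeagre {s : Om | Maps φ.1 (jn A s) B} := by
    by_contra hcon
    push Not at hcon
    have := countable_isFn_sub
    refine h ((isMeagre_iUnion hcon).mono ?_)
    rintro s ⟨φ, hφ, hm⟩
    exact Set.mem_iUnion.2 ⟨⟨φ, hφ⟩, hm⟩
  obtain ⟨⟨φ, hφ⟩, hφm⟩ := h1
  have h2 : ¬ IsNowhereDense {s : Om | Maps φ (jn A s) B} := fun h => hφm h.isMeagre
  have h3 : (interior (closure {s : Om | Maps φ (jn A s) B})).Nonempty := by
    rw [Set.nonempty_iff_ne_empty]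
    exact h2
  obtain ⟨s₀, hs₀⟩ := h3
  obtain ⟨n, hn⟩ := exists_pre_of_mem_nhds (mem_interior_iff_mem_nhds.1 hs₀)
  refine red_of_dense hφ (pre s₀ n) fun τ hτ => ?_
  -- a point extending `τ`
  let t : Om := fun i => τ.getD i false
  have ht : pre t τ.length = τ := by
    refine List.ext_getElem? fun i => ?_
    rw [pre_getElem?]
    split_ifs with hi
    · simp [t, hi]
    · rw [List.getElem?_eq_none (by omega)]
  have ht2 : t ∈ closure {s : Om | Maps φ (jn A s) B} := by
    refine hn t ?_
    have h4 : pre s₀ n <+: pre t τ.length := by rw [ht]; exact hτ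
    have h5 := eq_pre_of_prefix h4
    rw [pre_length] at h5
    exact h5.symm
  obtain ⟨s, hs1, hs2⟩ := mem_closure_iff_nhds.1 ht2 _ (pre_nhds t τ.length)
  exact ⟨s, by rw [← ht]; simpa using hs1, hs2⟩

end Vale.Agent.P327
end
end

section

section

/-!
Uniform iteration of a functional.
-/

namespace Vale.Agent.P327

namespace Iter

/-- The even positions of a string. -/
def evn (τ : List Bool) : List Bool :=
  (List.range ((τ.length + 1) / 2)).map fun i => τ.getD (2 * i) false

/-- The odd positions of a string. -/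
def odd (τ : List Bool) : List Bool :=
  (List.range (τ.length / 2)).map fun i => τ.getD (2 * i + 1) false

/-- Interleaving of two strings. -/
def ilv (σ π : List Bool) : List Bool :=
  (List.range (2 * min σ.length π.length)).map fun i =>
    if i % 2 = 0 then σ.getD (i / 2) false else π.getD (i / 2) false

/-- Iteration of a functional on strings. -/
def it (χ : List Bool → List Bool) (σ π : List Bool) (n : ℕ) : List Bool :=
  Nat.rec σ (fun _ IH => χ (ilv IH π)) n

theorem evn_prim : Primrec evn := by
  refine Primrec.list_map (Primrec.list_range.comp (Primrec.nat_div.comp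
    (Primrec.succ.comp Primrec.list_length) (Primrec.const 2))) ?_
  exact (Primrec.list_getD false).comp Primrec.fst
    (Primrec.nat_mul.comp (Primrec.const 2) Primrec.snd)

theorem odd_prim : Primrec odd := by
  refine Primrec.list_map (Primrec.list_range.comp (Primrec.nat_div.comp
    Primrec.list_length (Primrec.const 2))) ?_
  exact (Primrec.list_getD false).comp Primrec.fst
    (Primrec.succ.comp (Primrec.nat_mul.comp (Primrec.const 2) Primrec.snd))

theorem ilv_prim : Primrec₂ ilv := by
  refine Primrec.list_map (Primrec.list_range.comp (Primrec.nat_mul.comp (Primrec.const 2)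
    (Primrec.nat_min.comp (Primrec.list_length.comp Primrec.fst)
      (Primrec.list_length.comp Primrec.snd)))) ?_
  have hd : Primrec (fun q : (List Bool × List Bool) × ℕ => q.2 / 2) :=
    Primrec.nat_div.comp Primrec.snd (Primrec.const 2)
  refine Primrec.ite (Primrec.eq.comp (Primrec.nat_mod.comp Primrec.snd (Primrec.const 2))
    (Primrec.const 0)) ?_ ?_
  · exact (Primrec.list_getD false).comp (Primrec.fst.comp Primrec.fst) hd
  · exact (Primrec.list_getD false).comp (Primrec.snd.comp Primrec.fst) hd

theorem it_prim {χ : List Bool → List Bool} (hχ : Primrec χ) :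
    Primrec (fun q : (List Bool × List Bool) × ℕ => it χ q.1.1 q.1.2 q.2) := by
  refine Primrec.nat_rec' (f := fun q : (List Bool × List Bool) × ℕ => q.2)
    (g := fun q => q.1.1) (h := fun q p => χ (ilv p.2 q.1.2)) Primrec.snd
    (Primrec.fst.comp Primrec.fst) ?_
  exact hχ.comp (ilv_prim.comp (Primrec.snd.comp Primrec.snd)
    (Primrec.snd.comp (Primrec.fst.comp Primrec.fst)))

theorem pre_getD (X : Om) {n i : ℕ} (h : i < n) : (pre X n).getD i false = X i := by
  rw [List.getD_eq_getElem?_getD, pre_getElem?, if_pos h, Option.getD_some]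

theorem evn_pre (X Y : Om) (m : ℕ) : evn (pre (jn X Y) m) = pre X ((m + 1) / 2) := by
  apply List.ext_getElem
  · simp only [evn, List.getD_eq_getElem?_getD, pre_length, List.length_map, List.length_range]
  · intro i h1 h2
    have h3 : i < (m + 1) / 2 := by simpa using h2
    rw [pre_getElem]
    simp only [evn, List.getElem_map, List.getElem_range]
    rw [pre_getD _ (by omega)]
    simp [jn]

theorem odd_pre (X Y : Om) (m : ℕ) : odd (pre (jn X Y) m) = pre Y (m / 2) := by
  apply List.ext_getElem
  · simp only [odd, List.getD_eq_getElem?_getD, pre_length, List.length_map, List.length_range]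
  · intro i h1 h2
    have h3 : i < m / 2 := by simpa using h2
    rw [pre_getElem]
    simp only [odd, List.getElem_map, List.getElem_range]
    rw [pre_getD _ (by omega)]
    have h4 : (2 * i + 1) % 2 ≠ 0 := by omega
    have h5 : (2 * i + 1) / 2 = i := by omega
    simp [jn, h5]

theorem ilv_pre (X Y : Om) (a b : ℕ) : ilv (pre X a) (pre Y b) = pre (jn X Y) (2 * min a b) := by
  apply List.ext_getElem
  · simp only [ilv, List.getD_eq_getElem?_getD, pre_length, List.length_map, List.length_range]
  · intro i h1 h2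
    have h3 : i < 2 * min a b := by simpa only [pre_length] using h2
    rw [pre_getElem]
    simp only [ilv, List.getElem_map, List.getElem_range]
    rw [pre_getD _ (by omega), pre_getD _ (by omega)]
    rfl

variable {χ : List Bool → List Bool} {G : ℕ → Om} {P : Om}

theorem it_pre (h : ∀ n, Maps χ (jn (G n) P) (G (n + 1))) (a b n : ℕ) :
    it χ (pre (G 0) a) (pre P b) n = pre (G n) (it χ (pre (G 0) a) (pre P b) n).length := by
  induction n with
  | zero => simp [it]
  | succ n ih =>
    have h1 : it χ (pre (G 0) a) (pre P b) (n + 1) =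
        χ (ilv (it χ (pre (G 0) a) (pre P b) n) (pre P b)) := rfl
    rw [h1, ih, ilv_pre]
    exact (h n).1 _

theorem it_length (hχ : IsFn χ) (h : ∀ n, Maps χ (jn (G n) P) (G (n + 1))) (n L : ℕ) :
    ∃ M, ∀ m, M ≤ m → L ≤ (it χ (pre (G 0) ((m + 1) / 2)) (pre P (m / 2)) n).length := by
  induction n generalizing L with
  | zero =>
    refine ⟨2 * L, fun m hm => ?_⟩
    have h0 : it χ (pre (G 0) ((m + 1) / 2)) (pre P (m / 2)) 0 = pre (G 0) ((m + 1) / 2) := rfl
    rw [h0, pre_length]
    omega
  | succ n ih =>
    obtain ⟨k, hk⟩ := (h n).2 L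
    obtain ⟨M, hM⟩ := ih k
    refine ⟨max M (2 * k), fun m hm => ?_⟩
    have h2 := hM m (le_trans (le_max_left _ _) hm)
    have h3 : 2 * k ≤ m := le_trans (le_max_right _ _) hm
    have h1 : it χ (pre (G 0) ((m + 1) / 2)) (pre P (m / 2)) (n + 1) =
        χ (ilv (it χ (pre (G 0) ((m + 1) / 2)) (pre P (m / 2)) n) (pre P (m / 2))) := rfl
    rw [h1, it_pre h, ilv_pre]
    refine le_trans hk (List.IsPrefix.length_le (hχ.mono _ _ (pre_prefix _ ?_)))
    omega

end Iter

open Iter in
theorem red_iter {χ : List Bool → List Bool} (hχ : IsFn χ) (G : ℕ → Om) (P : Om)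
    (h : ∀ n, Maps χ (jn (G n) P) (G (n + 1))) : Red (ofCols G) (jn (G 0) P) := by
  refine red_of_search (fun q => (it χ (evn q.1) (odd q.1) q.2.1.unpair.1)[q.2.1.unpair.2]?)
    ?_ ?_ ?_
  · refine Primrec.list_getElem?.comp ((it_prim hχ.prim).comp (Primrec.pair (Primrec.pair
      (evn_prim.comp Primrec.fst) (odd_prim.comp Primrec.fst)) ?_)) ?_
    · exact Primrec.fst.comp (Primrec.unpair.comp (Primrec.fst.comp Primrec.snd))
    · exact Primrec.snd.comp (Primrec.unpair.comp (Primrec.fst.comp Primrec.snd))
  · intro m x w b hb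
    simp only [evn_pre, odd_pre] at hb
    rw [it_pre h, pre_getElem?] at hb
    split_ifs at hb with h1
    exact Option.some.inj hb
  · intro x
    obtain ⟨M, hM⟩ := it_length hχ h x.unpair.1 (x.unpair.2 + 1)
    refine ⟨M, 0, G x.unpair.1 x.unpair.2, ?_⟩
    simp only [evn_pre, odd_pre]
    rw [it_pre h, pre_getElem?, if_pos (Nat.lt_of_succ_le (hM M le_rfl))]

/-- two-step version used in the proof -/
theorem red_iter₂ {φ ψ : List Bool → List Bool} (hφ : IsFn φ) (hψ : IsFn ψ) (G M : ℕ → Om)
    (P Q : Om) (h1 : ∀ n, Maps φ (jn (G n) P) (M n))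
    (h2 : ∀ n, Maps ψ (jn (M n) Q) (G (n + 1))) :
    Red (ofCols G) (jn (G 0) (jn P Q)) := by
  obtain ⟨l, hl, hlm⟩ := exists_proj_left
  obtain ⟨r, hr, hrm⟩ := exists_proj_right
  -- `Z = jn (G n) (jn P Q)` to `jn (G n) P`
  obtain ⟨α, hα, hαm⟩ := exists_pair hl (hl.comp hr)
  obtain ⟨β, hβ, hβm⟩ := exists_pair (hφ.comp hα) (hr.comp hr)
  refine red_iter (hψ.comp hβ) G (jn P Q) fun n => ?_
  have h3 : Maps α (jn (G n) (jn P Q)) (jn (G n) P) :=
    hαm _ _ _ (hlm _ _) (Maps.comp hl (hrm _ _) (hlm _ _))
  have h4 : Maps (φ ∘ α) (jn (G n) (jn P Q)) (M n) := Maps.comp hφ h3 (h1 n)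
  have h5 : Maps (r ∘ r) (jn (G n) (jn P Q)) Q := Maps.comp hr (hrm _ _) (hrm _ _)
  exact Maps.comp hψ (hβm _ _ _ h4 h5) (h2 n)

end Vale.Agent.P327
end
end

section

section

/-! Basic Turing reductions between the operations on reals used in the rigidity proof. -/

namespace Vale.Agent.P327

/-- one-query truth-table reductions -/
theorem red_of_q1 {X Y : Om} (q : ℕ → ℕ) (hq : Primrec q) (h : ℕ × Bool → Bool) (hh : Primrec h)
    (e : ∀ n, X n = h (n, Y (q n))) : Red X Y := by
  refine red_of_tt (fun n => [q n]) ?_ (fun p => h (p.1, p.2.getD 0 false)) ?_ ?_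
  · exact Primrec.list_cons.comp hq (Primrec.const [])
  · exact hh.comp (Primrec.pair Primrec.fst
      ((Primrec.list_getD false).comp Primrec.snd (Primrec.const 0)))
  · intro n
    rw [e n]
    rfl

/-- two-query truth-table reductions -/
theorem red_of_q2 {X Y : Om} (q r : ℕ → ℕ) (hq : Primrec q) (hr : Primrec r)
    (h : ℕ × Bool × Bool → Bool) (hh : Primrec h)
    (e : ∀ n, X n = h (n, Y (q n), Y (r n))) : Red X Y := by
  refine red_of_tt (fun n => [q n, r n]) ?_
    (fun p => h (p.1, p.2.getD 0 false, p.2.getD 1 false)) ?_ ?_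
  · exact Primrec.list_cons.comp hq (Primrec.list_cons.comp hr (Primrec.const []))
  · exact hh.comp (Primrec.pair Primrec.fst (Primrec.pair
      ((Primrec.list_getD false).comp Primrec.snd (Primrec.const 0))
      ((Primrec.list_getD false).comp Primrec.snd (Primrec.const 1))))
  · intro n
    rw [e n]
    rfl

theorem jn_even (X Y : Om) (n : ℕ) : jn X Y (2 * n) = X n := by
  simp [jn]

theorem jn_odd (X Y : Om) (n : ℕ) : jn X Y (2 * n + 1) = Y n := by
  have h2 : (2 * n + 1) % 2 = 1 := by omega
  have h3 : (2 * n + 1) / 2 = n := by omega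
  simp [jn, h2, h3]

theorem red_jn_left (X Y : Om) : Red X (jn X Y) := ⟨projL, projL_fn, projL_maps X Y⟩

theorem red_jn_right (X Y : Om) : Red Y (jn X Y) := ⟨projR, projR_fn, projR_maps X Y⟩

theorem jn_red {X Y Z : Om} (hX : Red X Z) (hY : Red Y Z) : Red (jn X Y) Z := by
  obtain ⟨α, hα, hα'⟩ := hX
  obtain ⟨β, hβ, hβ'⟩ := hY
  obtain ⟨φ, hφ, hφ'⟩ := exists_pair hα hβ
  exact ⟨φ, hφ, hφ' Z X Y hα' hβ'⟩

private theorem prim_dbl {α : Type*} [Primcodable α] {f : α → ℕ} (hf : Primrec f) :
    Primrec fun a => 2 * f a := Primrec.nat_mul.comp (Primrec.const 2) hf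

private theorem prim_dbl1 {α : Type*} [Primcodable α] {f : α → ℕ} (hf : Primrec f) :
    Primrec fun a => 2 * f a + 1 := Primrec.succ.comp (prim_dbl hf)

private theorem prim_u1 : Primrec fun n : ℕ => n.unpair.1 := Primrec.fst.comp Primrec.unpair

private theorem prim_u2 : Primrec fun n : ℕ => n.unpair.2 := Primrec.snd.comp Primrec.unpair

theorem red_add (X Y : Om) : Red (X + Y) (jn X Y) := by
  refine red_of_q2 (fun n => 2 * n) (fun n => 2 * n + 1) (prim_dbl Primrec.id)
    (prim_dbl1 Primrec.id) (fun p => xor p.2.1 p.2.2) ?_ ?_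
  · exact (Primrec.dom_finite (fun p : Bool × Bool => xor p.1 p.2)).comp Primrec.snd
  · intro n
    rw [jn_even, jn_odd]
    rfl

theorem red_col (i : ℕ) (X : Om) : Red (col i X) X := by
  refine red_of_q1 (fun n => Nat.pair i n) (Primrec₂.natPair.comp (Primrec.const i) Primrec.id)
    (fun p => p.2) Primrec.snd ?_
  intro n
  rfl

theorem red_sh (X : Om) : Red (sh X) X := by
  refine red_of_q1 (fun n => Nat.pair n.unpair.1 (n.unpair.2 + 1))
    (Primrec₂.natPair.comp prim_u1 (Primrec.succ.comp prim_u2))
    (fun p => p.2) Primrec.snd ?_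
  intro n
  rfl

theorem red_selCols (h X : Om) : Red (selCols h X) (jn h X) := by
  refine red_of_q2 (fun n => 2 * n.unpair.1) (fun n => 2 * n + 1) (prim_dbl prim_u1)
    (prim_dbl1 Primrec.id) (fun p => p.2.1 && p.2.2) ?_ ?_
  · exact (Primrec.dom_finite (fun p : Bool × Bool => p.1 && p.2)).comp Primrec.snd
  · intro n
    rw [jn_even, jn_odd]
    rfl

theorem red_selCols_delCol {h : Om} {n : ℕ} (hn : h n = false) (X : Om) :
    Red (selCols h X) (jn h (delCol n X)) := by
  have e : selCols h X = selCols h (delCol n X) := by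
    funext m
    unfold selCols delCol
    by_cases hm : m.unpair.1 = n
    · rw [hm, hn]; simp
    · rw [if_neg hm]
  rw [e]
  exact red_selCols h (delCol n X)

theorem red_col_selCols {h : Om} {n : ℕ} (hn : h n = true) (X : Om) :
    Red (col n X) (selCols h X) := by
  have e : col n X = col n (selCols h X) := by
    funext m
    simp [col, selCols, hn]
  rw [e]
  exact red_col n (selCols h X)

theorem red_tens (r a : Om) : Red (tens r a) (jn r a) := by
  refine red_of_q2 (fun n => 2 * n.unpair.1) (fun n => 2 * n.unpair.2 + 1) (prim_dbl prim_u1)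
    (prim_dbl1 prim_u2) (fun p => p.2.1 && p.2.2) ?_ ?_
  · exact (Primrec.dom_finite (fun p : Bool × Bool => p.1 && p.2)).comp Primrec.snd
  · intro n
    rw [jn_even, jn_odd]
    rfl

theorem red_spread (a : Om) : Red (spread a) a := by
  refine red_of_q1 Nat.sqrt Primrec.nat_sqrt
    (fun p => if Nat.sqrt p.1 * Nat.sqrt p.1 = p.1 then p.2 else false) ?_ ?_
  · exact Primrec.ite (Primrec.eq.comp (Primrec.nat_mul.comp (Primrec.nat_sqrt.comp Primrec.fst)
      (Primrec.nat_sqrt.comp Primrec.fst)) Primrec.fst) Primrec.snd (Primrec.const false)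
  · intro n
    unfold spread
    by_cases h : Nat.sqrt n * Nat.sqrt n = n
    · simp [h]
    · simp [h]

/-- decoding: from the columns `G (k*k - s)` read off bit `k0`, xor a constant, from some
index on -/
theorem red_decode (G : ℕ → Om) (a : Om) (s k0 K : ℕ) (c : Bool)
    (h : ∀ k, K ≤ k → a k = xor (G (k * k - s) k0) c) : Red a (ofCols G) := by
  refine red_of_q1 (fun k => Nat.pair (k * k - s) k0) ?_
    (fun p => if p.1 < K then (pre a K).getD p.1 false else xor p.2 c) ?_ ?_
  · exact Primrec₂.natPair.comp (Primrec.nat_sub.comp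
      (Primrec.nat_mul.comp Primrec.id Primrec.id) (Primrec.const s)) (Primrec.const k0)
  · refine Primrec.ite (Primrec.nat_lt.comp Primrec.fst (Primrec.const K)) ?_ ?_
    · exact (Primrec.list_getD false).comp (Primrec.const (pre a K)) Primrec.fst
    · exact (Primrec.dom_finite (fun b : Bool => xor b c)).comp Primrec.snd
  · intro n
    by_cases hn : n < K
    · simp only [hn, if_true]
      rw [pre_getD a hn]
    · simp only [hn, if_false]
      rw [h n (by omega)]
      simp only [ofCols, Nat.unpair_pair]

theorem red_unit (g : ℕ) (X : Om) : Red (unit g) X := by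
  refine red_of_q1 id Primrec.id (fun p => if p.1 = g then true else false) ?_ ?_
  · exact Primrec.ite (Primrec.eq.comp Primrec.fst (Primrec.const g)) (Primrec.const true)
      (Primrec.const false)
  · intro n
    unfold unit
    by_cases h : n = g
    · simp [h]
    · simp [h]

end Vale.Agent.P327
end
end

section

section

/-!
Step 1: every automorphism is generically represented by countably many Borel functions.
-/

open MeasureTheory Topology Filter

namespace Vale.Agent.P327

/-- A presentation of an automorphism of the Turing degrees by functions on reals. -/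
structure Auto where
  f : Om → Om
  g : Om → Om
  f_red : ∀ X Y, Red X Y ↔ Red (f X) (f Y)
  g_red : ∀ X Y, Red X Y ↔ Red (g X) (g Y)
  fg : ∀ X, Eqv (f (g X)) X
  gf : ∀ X, Eqv (g (f X)) X

namespace Auto

/-- The inverse automorphism. -/
def symm (π : Auto) : Auto := ⟨π.g, π.f, π.g_red, π.f_red, π.gf, π.fg⟩

theorem g_red_iff (π : Auto) (X Y : Om) : Red (π.g X) Y ↔ Red X (π.f Y) := by
  constructor
  · intro h
    have h1 : Red (π.f (π.g X)) (π.f Y) := (π.f_red _ _).1 h
    exact Red.trans (π.fg X).2 h1
  · intro h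
    have h1 : Red (π.g X) (π.g (π.f Y)) := (π.g_red _ _).1 h
    exact Red.trans h1 (π.gf Y).1

theorem red_f_iff (π : Auto) (X Y : Om) : Red X (π.f Y) ↔ Red (π.g X) Y :=
  (π.g_red_iff X Y).symm

theorem g_jn (π : Auto) (X Y : Om) : Red (π.g (jn X Y)) (jn (π.g X) (π.g Y)) := by
  rw [g_red_iff]
  apply jn_red
  · rw [red_f_iff]; exact red_jn_left _ _
  · rw [red_f_iff]; exact red_jn_right _ _

theorem f_jn (π : Auto) (X Y : Om) : Red (π.f (jn X Y)) (jn (π.f X) (π.f Y)) :=
  π.symm.g_jn X Y

end Auto

theorem jn_comm_red (X Y : Om) : Red (jn X Y) (jn Y X) :=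
  jn_red (red_jn_right _ _) (red_jn_left _ _)

theorem jn_mono {X Y X' Y' : Om} (h : Red X X') (h' : Red Y Y') : Red (jn X Y) (jn X' Y') :=
  jn_red (h.trans (red_jn_left _ _)) (h'.trans (red_jn_right _ _))

/-- There is a real whose columns are Turing independent. -/
theorem exists_indep : ∃ A : Om, ∀ n, ¬ Red (col n A) (delCol n A) := by
  have key : ∀ e n, IsNowhereDense {A : Om | Maps (enum e) (delCol n A) (col n A)} := by
    intro e n
    rw [IsNowhereDense, Set.eq_empty_iff_forall_notMem]
    intro x hx
    obtain ⟨k, hk⟩ := exists_pre_subset isOpen_interior hx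
    -- a point of the set in this cylinder
    have hxc : x ∈ closure {A : Om | Maps (enum e) (delCol n A) (col n A)} := interior_subset hx
    obtain ⟨A, hA1, hA2⟩ := mem_closure_iff.1 hxc _ (isOpen_pre (pre x k) k) rfl
    change pre A k = pre x k at hA1
    change Maps (enum e) (delCol n A) (col n A) at hA2
    -- flip a bit of column `n` beyond `k`
    set p : ℕ := Nat.pair n k with hp
    have hkp : k ≤ p := Nat.right_le_pair n k
    obtain ⟨m, hm⟩ := hA2.2 (k + 1)
    set N : ℕ := max m (p + 1) with hN
    let B : Om := fun i => if i = p then !(A i) else A i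
    have hBA : pre B k = pre A k := by
      rw [pre_eq_iff]; intro i hi
      have : i ≠ p := by omega
      simp [B, this]
    have hBi : B ∈ interior (closure {A : Om | Maps (enum e) (delCol n A) (col n A)}) :=
      hk B (hBA.trans hA1)
    have hBc := interior_subset hBi
    obtain ⟨D, hD1, hD2⟩ := mem_closure_iff.1 hBc _ (isOpen_pre (pre B N) N) rfl
    change pre D N = pre B N at hD1
    change Maps (enum e) (delCol n D) (col n D) at hD2
    rw [pre_eq_iff] at hD1
    have hpre : pre (delCol n D) m = pre (delCol n A) m := by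
      rw [pre_eq_iff]; intro i hi
      unfold delCol
      by_cases h1 : i.unpair.1 = n
      · simp [h1]
      · have h2 : i ≠ p := by
          rintro rfl
          apply h1; simp [hp]
        simp only [h1, if_false]
        rw [hD1 i (by omega)]
        simp [B, h2]
    have e1 := hA2.1 m
    have e2 := hD2.1 m
    rw [hpre] at e2
    have e2' := e1.symm.trans e2
    rw [pre_eq_iff] at e2'
    have e3 := e2' k (by omega)
    have e4 : D p = B p := hD1 p (by omega)
    simp only [col] at e3
    rw [← hp, e4] at e3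
    simp [B] at e3
  have hres : ∀ᶠ A in residual Om, ∀ (e n : ℕ), ¬ Maps (enum e) (delCol n A) (col n A) := by
    rw [eventually_countable_forall]; intro e
    rw [eventually_countable_forall]; intro n
    exact (key e n).isMeagre
  obtain ⟨A, hA⟩ := (dense_of_mem_residual hres).nonempty
  refine ⟨A, fun n hn => ?_⟩
  obtain ⟨e, he⟩ := red_iff_enum.1 hn
  exact hA e n he

/-- Step 1. -/
theorem Auto.exists_borel (π : Auto) : ∃ F : ℕ → Om → Om, (∀ i, Measurable (F i)) ∧
    ∀ᶠ Y in residual Om, ∃ i, F i Y = π.f Y := by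
  classical
  obtain ⟨ev, ev_meas, ev_red, -, ev_surj⟩ := exists_ev
  obtain ⟨A, hA⟩ := exists_indep
  let E : ℕ → Om := fun n => π.g (col n A)
  let C : Om := π.g A
  let F : ℕ → Om → Om := fun i Y n => decide (Red (E n) (ev i (jn C Y)))
  refine ⟨F, ?_, ?_⟩
  · intro i
    rw [measurable_pi_iff]
    intro n
    have hset : MeasurableSet {Y : Om | Red (E n) (ev i (jn C Y))} := by
      have hm : Measurable (fun Y : Om => (E n, ev i (jn C Y))) := by
        refine measurable_const.prodMk ((ev_meas i).comp ?_)
        exact measurable_jn.comp (measurable_const.prodMk measurable_id)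
      exact hm measurableSet_red
    refine measurable_to_bool ?_
    have he : (fun Y : Om => decide (Red (E n) (ev i (jn C Y)))) ⁻¹' {true}
        = {Y : Om | Red (E n) (ev i (jn C Y))} := by
      ext Y; simp
    rw [show (fun Y : Om => F i Y n) = fun Y : Om => decide (Red (E n) (ev i (jn C Y))) from rfl, he]
    exact hset
  · have hbad : ∀ n, IsMeagre {Y : Om | Red (E n) (jn (π.g (delCol n A)) Y)} := by
      intro n
      by_contra hcon
      have h1 := not_meagre_red hcon
      exact hA n ((π.g_red _ _).2 h1)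
    have hall : ∀ᶠ Y in residual Om, ∀ n, ¬ Red (E n) (jn (π.g (delCol n A)) Y) := by
      rw [eventually_countable_forall]
      intro n
      exact hbad n
    filter_upwards [hall] with Y hY
    set h : Om := π.f Y with hh
    set U : Om := selCols h A with hU
    have gh : Red (π.g h) Y := (π.gf Y).1
    have hgU : Red (π.g U) (jn C Y) := by
      have h1 : Red (π.g U) (π.g (jn h A)) := (π.g_red _ _).1 (red_selCols h A)
      refine h1.trans ((π.g_jn h A).trans ?_)
      exact (jn_comm_red _ _).trans (jn_mono (Red.refl _) gh)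
    obtain ⟨i, hi⟩ := ev_surj _ _ hgU
    refine ⟨i, ?_⟩
    funext n
    have hiff : Red (E n) (ev i (jn C Y)) ↔ h n = true := by
      rw [hi]
      show Red (π.g (col n A)) (π.g U) ↔ _
      rw [← π.g_red]
      constructor
      · intro hr
        by_contra hne
        have hn : h n = false := by simpa using hne
        apply hY n
        have h2 : Red (col n A) (jn h (delCol n A)) := hr.trans (red_selCols_delCol hn A)
        have h3 : Red (E n) (π.g (jn h (delCol n A))) := (π.g_red _ _).1 h2
        refine h3.trans ((π.g_jn _ _).trans ?_)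
        exact (jn_comm_red _ _).trans (jn_mono (Red.refl _) gh)
      · intro hn
        exact red_col_selCols hn A
    show decide (Red (E n) (ev i (jn C Y))) = h n
    by_cases hb : h n = true
    · rw [hb]; simpa using hiff.2 hb
    · have : ¬ Red (E n) (ev i (jn C Y)) := fun hr => hb (hiff.1 hr)
      have hn : h n = false := by simpa using hb
      rw [hn]; simpa using this

end Vale.Agent.P327
end
end

section

section

/-!
The use principle: a partial function is recursive in a set of natural numbers exactly when its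
values can be found by a primitive recursive search through the initial segments of the set.
-/

namespace Vale.Agent.P327.Bridge

/-- The characteristic function of the set `A`. -/
def chi (A : ℕ → Bool) : ℕ →. ℕ := fun n => Part.some (A n).toNat

theorem pre_succ (A : ℕ → Bool) (m : ℕ) : pre A (m + 1) = pre A m ++ [A m] := by
  simp [pre, List.range_succ]

/-- A primitive recursive, monotone family of partial values depending on finite strings. -/
structure IsUse (θ : List Bool → ℕ → Option ℕ) : Prop where
  prim : Primrec₂ θ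
  mono : ∀ s t n v, s <+: t → θ s n = some v → θ t n = some v

/-- `θ` computes the partial function `f` from `A`. -/
def Computes (θ : List Bool → ℕ → Option ℕ) (A : ℕ → Bool) (f : ℕ →. ℕ) : Prop :=
  ∀ n v, v ∈ f n ↔ ∃ m, θ (pre A m) n = some v

theorem IsUse.common {θ : List Bool → ℕ → Option ℕ} (hθ : IsUse θ) {A : ℕ → Bool} {n v m m' : ℕ}
    (h : θ (pre A m) n = some v) (hm : m ≤ m') : θ (pre A m') n = some v :=
  hθ.mono _ _ _ _ (pre_prefix A hm) h

/-- Primitive recursion at the level of finite approximations. -/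
def recUse (θ₁ θ₂ : List Bool → ℕ → Option ℕ) (s : List Bool) (a n : ℕ) : Option ℕ :=
  n.rec (θ₁ s a) fun y IH => IH.bind fun i => θ₂ s (Nat.pair a (Nat.pair y i))

/-- Unbounded search at the level of finite approximations. -/
def findUse (θ : List Bool → ℕ → Option ℕ) (s : List Bool) (a : ℕ) : Option ℕ :=
  let idx := (List.range s.length).findIdx fun k => !decide (0 < (θ s (Nat.pair a k)).getD 0)
  if θ s (Nat.pair a idx) = some 0 then some idx else none

theorem findUse_eq_some (θ : List Bool → ℕ → Option ℕ) (s : List Bool) (a v : ℕ) :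
    findUse θ s a = some v ↔ v ≤ s.length ∧ θ s (Nat.pair a v) = some 0 ∧
      ∀ k < v, ∃ w, θ s (Nat.pair a k) = some (w + 1) := by
  have hpos : ∀ k, 0 < (θ s (Nat.pair a k)).getD 0 ↔ ∃ w, θ s (Nat.pair a k) = some (w + 1) := by
    intro k
    rcases θ s (Nat.pair a k) with _ | w
    · simp
    · rcases w with _ | w
      · simp
      · simp only [Option.getD_some, lt_add_iff_pos_left, Order.lt_add_one_iff, zero_le, Option.some.injEq, Nat.add_right_cancel_iff, exists_eq']
  set p : ℕ → Bool := fun k => !decide (0 < (θ s (Nat.pair a k)).getD 0) with hp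
  have hlen : (List.range s.length).findIdx p ≤ s.length := by
    simpa using List.findIdx_le_length (xs := List.range s.length) (p := p)
  have hbefore : ∀ k < (List.range s.length).findIdx p,
      ∃ w, θ s (Nat.pair a k) = some (w + 1) := by
    intro k hk
    have h1 := List.not_of_lt_findIdx hk
    rw [← hpos]
    simpa [hp] using h1
  have hE : findUse θ s a = if θ s (Nat.pair a ((List.range s.length).findIdx p)) = some 0 then
    some ((List.range s.length).findIdx p) else none := rfl
  rw [hE]
  constructor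
  · intro h
    split_ifs at h with h0
    · obtain rfl := Option.some.inj h
      exact ⟨hlen, h0, hbefore⟩
  · rintro ⟨h1, h2, h3⟩
    have hv : (List.range s.length).findIdx p = v := by
      rcases lt_trichotomy ((List.range s.length).findIdx p) v with h | h | h
      · exfalso
        obtain ⟨w, hw⟩ := h3 _ h
        have hlt : (List.range s.length).findIdx p < (List.range s.length).length := by
          rw [List.length_range]; omega
        have h4 : p ((List.range s.length)[(List.range s.length).findIdx p]'hlt) = true :=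
          List.findIdx_getElem
        rw [List.getElem_range] at h4
        change (!decide (0 < (θ s (Nat.pair a ((List.range s.length).findIdx p))).getD 0)) = true
          at h4
        rw [hw] at h4
        simp only [Option.getD_some, lt_add_iff_pos_left, Order.lt_add_one_iff, zero_le, decide_true, Bool.not_true, Bool.false_eq_true] at h4
      · exact h
      · exfalso
        obtain ⟨w, hw⟩ := hbefore _ h
        rw [h2] at hw
        simp at hw
    rw [hv, if_pos h2]

theorem IsUse.findUse {θ : List Bool → ℕ → Option ℕ} (h : IsUse θ) : IsUse (findUse θ) where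
  prim := by
    have h1 : Primrec fun q : (List Bool × ℕ) =>
        (List.range q.1.length).findIdx fun k =>
          !decide (0 < (θ q.1 (Nat.pair q.2 k)).getD 0) := by
      refine Primrec.list_findIdx (Primrec.list_range.comp (Primrec.list_length.comp Primrec.fst)) ?_
      have h2 : Primrec₂ fun (q : List Bool × ℕ) (k : ℕ) => (θ q.1 (Nat.pair q.2 k)).getD 0 := by
        refine Primrec.option_getD.comp ?_ (Primrec.const 0)
        exact h.prim.comp (Primrec.fst.comp Primrec.fst)
          (Primrec₂.natPair.comp (Primrec.snd.comp Primrec.fst) Primrec.snd)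
      refine Primrec.not.comp ?_
      exact (PrimrecRel.comp Primrec.nat_lt (Primrec.const 0) h2).decide
    refine Primrec.ite ?_ (Primrec.option_some.comp h1) (Primrec.const none)
    refine PrimrecRel.comp Primrec.eq ?_ (Primrec.const (some 0))
    exact h.prim.comp Primrec.fst (Primrec₂.natPair.comp Primrec.snd h1)
  mono s t n v hst := by
    rw [findUse_eq_some, findUse_eq_some]
    rintro ⟨h1, h2, h3⟩
    refine ⟨h1.trans hst.length_le, h.mono _ _ _ _ hst h2, fun k hk => ?_⟩
    obtain ⟨w, hw⟩ := h3 k hk
    exact ⟨w, h.mono _ _ _ _ hst hw⟩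

theorem IsUse.recUse {θ₁ θ₂ : List Bool → ℕ → Option ℕ} (h₁ : IsUse θ₁) (h₂ : IsUse θ₂) :
    IsUse fun s p => recUse θ₁ θ₂ s p.unpair.1 p.unpair.2 where
  prim := by
    refine Primrec.nat_rec' (f := fun q : List Bool × ℕ => q.2.unpair.2)
      (g := fun q : List Bool × ℕ => θ₁ q.1 q.2.unpair.1)
      (h := fun (q : List Bool × ℕ) (z : ℕ × Option ℕ) => z.2.bind fun i =>
        θ₂ q.1 (Nat.pair q.2.unpair.1 (Nat.pair z.1 i)))
      (Primrec.snd.comp (Primrec.unpair.comp Primrec.snd))
      (h₁.prim.comp Primrec.fst (Primrec.fst.comp (Primrec.unpair.comp Primrec.snd))) ?_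
    refine Primrec.option_bind (Primrec.snd.comp Primrec.snd) ?_
    refine h₂.prim.comp (Primrec.fst.comp (Primrec.fst.comp Primrec.fst)) ?_
    refine Primrec₂.natPair.comp ?_ (Primrec₂.natPair.comp
      (Primrec.fst.comp (Primrec.snd.comp Primrec.fst)) Primrec.snd)
    exact Primrec.fst.comp (Primrec.unpair.comp (Primrec.snd.comp (Primrec.fst.comp Primrec.fst)))
  mono s t p v hst := by
    generalize p.unpair.1 = a
    generalize p.unpair.2 = n
    induction n generalizing v with
    | zero => exact h₁.mono _ _ _ _ hst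
    | succ n ih =>
      intro h
      simp only [Bridge.recUse, Option.bind_eq_some_iff] at h ih ⊢
      obtain ⟨i, hi, h2⟩ := h
      exact ⟨i, ih i hi, h₂.mono _ _ _ _ hst h2⟩

/-- Every partial function recursive in `A` has a use function. -/
theorem exists_use {A : ℕ → Bool} {f : ℕ →. ℕ} (hf : Nat.RecursiveIn {chi A} f) :
    ∃ θ, IsUse θ ∧ Computes θ A f := by
  induction hf with
  | zero =>
    refine ⟨fun _ _ => some 0, ⟨Primrec.const _, fun _ _ _ _ _ h => h⟩, fun n v => ?_⟩
    simp only [Option.some.injEq, exists_const]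
    exact ⟨fun h => (Part.mem_some_iff.1 h).symm, fun h => Part.mem_some_iff.2 h.symm⟩
  | succ =>
    refine ⟨fun _ n => some (n + 1),
      ⟨Primrec.option_some.comp (Primrec.succ.comp Primrec.snd), fun _ _ _ _ _ h => h⟩,
      fun n v => ?_⟩
    simp only [Option.some.injEq, exists_const]
    exact ⟨fun h => (Part.mem_some_iff.1 h).symm, fun h => Part.mem_some_iff.2 h.symm⟩
  | left =>
    refine ⟨fun _ n => some n.unpair.1,
      ⟨Primrec.option_some.comp (Primrec.fst.comp (Primrec.unpair.comp Primrec.snd)),
        fun _ _ _ _ _ h => h⟩, fun n v => ?_⟩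
    simp only [Option.some.injEq, exists_const]
    exact ⟨fun h => (Part.mem_some_iff.1 h).symm, fun h => Part.mem_some_iff.2 h.symm⟩
  | right =>
    refine ⟨fun _ n => some n.unpair.2,
      ⟨Primrec.option_some.comp (Primrec.snd.comp (Primrec.unpair.comp Primrec.snd)),
        fun _ _ _ _ _ h => h⟩, fun n v => ?_⟩
    simp only [Option.some.injEq, exists_const]
    exact ⟨fun h => (Part.mem_some_iff.1 h).symm, fun h => Part.mem_some_iff.2 h.symm⟩
  | oracle g hg =>
    obtain rfl := Set.mem_singleton_iff.1 hg
    refine ⟨fun s n => (s[n]?).map Bool.toNat, ⟨?_, ?_⟩, fun n v => ?_⟩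
    · exact Primrec.option_map (Primrec.list_getElem?.comp Primrec.fst Primrec.snd)
        ((Primrec.dom_bool Bool.toNat).comp Primrec.snd)
    · intro s t n v hst h
      simp only [Option.map_eq_some_iff] at h ⊢
      obtain ⟨b, hb, h⟩ := h
      refine ⟨b, ?_, h⟩
      obtain ⟨r, rfl⟩ := hst
      have hlt : n < s.length := by
        by_contra hc
        rw [List.getElem?_eq_none (not_lt.1 hc)] at hb
        simp at hb
      rw [List.getElem?_append_left hlt, hb]
    · simp only [chi, Part.mem_some_iff, Option.map_eq_some_iff, pre_getElem?]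
      constructor
      · rintro rfl
        exact ⟨n + 1, A n, by simp, rfl⟩
      · rintro ⟨m, b, hb, rfl⟩
        split_ifs at hb
        rw [Option.some.inj hb]
  | @pair f h hf hh ihf ihh =>
    obtain ⟨θ₁, h₁, c₁⟩ := ihf
    obtain ⟨θ₂, h₂, c₂⟩ := ihh
    refine ⟨fun s n => (θ₁ s n).bind fun a => (θ₂ s n).map fun b => Nat.pair a b, ⟨?_, ?_⟩, ?_⟩
    · refine Primrec.option_bind h₁.prim ?_
      exact Primrec.option_map (h₂.prim.comp (Primrec.fst.comp Primrec.fst)
        (Primrec.snd.comp Primrec.fst)) (Primrec₂.natPair.comp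
        (Primrec.snd.comp Primrec.fst) Primrec.snd)
    · intro s t n v hst h
      simp only [Option.bind_eq_some_iff, Option.map_eq_some_iff] at h ⊢
      obtain ⟨a, ha, b, hb, h⟩ := h
      exact ⟨a, h₁.mono _ _ _ _ hst ha, b, h₂.mono _ _ _ _ hst hb, h⟩
    · intro n v
      simp only [Option.bind_eq_some_iff, Option.map_eq_some_iff]
      have : v ∈ (Nat.pair <$> f n <*> h n) ↔ ∃ a ∈ f n, ∃ b ∈ h n, Nat.pair a b = v := by
        simp only [Seq.seq, Part.map_eq_map, Part.bind_map, Part.mem_bind_iff, Part.mem_map_iff]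
      rw [this]
      constructor
      · rintro ⟨a, ha, b, hb, rfl⟩
        obtain ⟨m₁, hm₁⟩ := (c₁ n a).1 ha
        obtain ⟨m₂, hm₂⟩ := (c₂ n b).1 hb
        exact ⟨max m₁ m₂, a, h₁.common hm₁ (le_max_left _ _), b, h₂.common hm₂ (le_max_right _ _),
          rfl⟩
      · rintro ⟨m, a, ha, b, hb, rfl⟩
        exact ⟨a, (c₁ n a).2 ⟨m, ha⟩, b, (c₂ n b).2 ⟨m, hb⟩, rfl⟩
  | @comp f h hf hh ihf ihh =>
    obtain ⟨θ₁, h₁, c₁⟩ := ihf
    obtain ⟨θ₂, h₂, c₂⟩ := ihh
    refine ⟨fun s n => (θ₂ s n).bind fun a => θ₁ s a, ⟨?_, ?_⟩, ?_⟩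
    · refine Primrec.option_bind h₂.prim ?_
      exact h₁.prim.comp (Primrec.fst.comp Primrec.fst) Primrec.snd
    · intro s t n v hst h
      simp only [Option.bind_eq_some_iff] at h ⊢
      obtain ⟨a, ha, h⟩ := h
      exact ⟨a, h₂.mono _ _ _ _ hst ha, h₁.mono _ _ _ _ hst h⟩
    · intro n v
      simp only [Option.bind_eq_some_iff]
      refine (Part.mem_bind_iff (f := h n) (g := f)).trans ?_
      constructor
      · rintro ⟨a, ha, hv⟩
        obtain ⟨m₂, hm₂⟩ := (c₂ n a).1 ha
        obtain ⟨m₁, hm₁⟩ := (c₁ a v).1 hv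
        exact ⟨max m₁ m₂, a, h₂.common hm₂ (le_max_right _ _), h₁.common hm₁ (le_max_left _ _)⟩
      · rintro ⟨m, a, ha, hv⟩
        exact ⟨a, (c₂ n a).2 ⟨m, ha⟩, (c₁ a v).2 ⟨m, hv⟩⟩
  | @prec f h hf hh ihf ihh =>
    obtain ⟨θ₁, h₁, c₁⟩ := ihf
    obtain ⟨θ₂, h₂, c₂⟩ := ihh
    refine ⟨_, h₁.recUse h₂, fun p v => ?_⟩
    change v ∈ (Nat.rec (f p.unpair.1) (fun y IH => do
        let i ← IH
        h (Nat.pair p.unpair.1 (Nat.pair y i))) p.unpair.2 : Part ℕ) ↔ _
    generalize p.unpair.1 = a
    generalize p.unpair.2 = n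
    induction n generalizing v with
    | zero => exact c₁ a v
    | succ n ih =>
      have h3 : v ∈ ((Nat.rec (f a) (fun y IH => do
          let i ← IH
          h (Nat.pair a (Nat.pair y i))) n : Part ℕ) >>= fun i => h (Nat.pair a (Nat.pair n i))) ↔
          ∃ i ∈ (Nat.rec (f a) (fun y IH => do
          let i ← IH
          h (Nat.pair a (Nat.pair y i))) n : Part ℕ), v ∈ h (Nat.pair a (Nat.pair n i)) := by
        simp
      refine h3.trans ?_
      have h4 : ∀ m, recUse θ₁ θ₂ (pre A m) a (n + 1) = some v ↔
          ∃ i, recUse θ₁ θ₂ (pre A m) a n = some i ∧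
            θ₂ (pre A m) (Nat.pair a (Nat.pair n i)) = some v := by
        intro m
        exact Option.bind_eq_some_iff
      simp only [h4]
      constructor
      · rintro ⟨i, hi, hv⟩
        obtain ⟨m₁, hm₁⟩ := (ih i).1 hi
        obtain ⟨m₂, hm₂⟩ := (c₂ _ v).1 hv
        refine ⟨max m₁ m₂, i, ?_, h₂.common hm₂ (le_max_right _ _)⟩
        have h5 := (h₁.recUse h₂).mono _ _ (Nat.pair a n) i (pre_prefix A (le_max_left m₁ m₂))
        simp only [Nat.unpair_pair] at h5
        exact h5 hm₁
      · rintro ⟨m, i, hi, hv⟩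
        exact ⟨i, (ih i).2 ⟨m, hi⟩, (c₂ _ v).2 ⟨m, hv⟩⟩
  | @rfind f hf ihf =>
    obtain ⟨θ, h, c⟩ := ihf
    refine ⟨_, h.findUse, fun a v => ?_⟩
    have h1 : (v ∈ Nat.rfind fun n => Part.map (fun m => decide (m = 0)) (f (Nat.pair a n))) ↔
        0 ∈ f (Nat.pair a v) ∧ ∀ k < v, ∃ w, w + 1 ∈ f (Nat.pair a k) := by
      refine Iff.trans
        (Nat.mem_rfind (p := fun n => Part.map (fun m => decide (m = 0)) (f (Nat.pair a n)))) ?_
      refine and_congr ?_ (forall_congr' fun k => ?_)
      · rw [Part.mem_map_iff]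
        constructor
        · rintro ⟨w, hw, hw0⟩
          rwa [of_decide_eq_true hw0] at hw
        · intro hw
          exact ⟨0, hw, by simp⟩
      · refine imp_congr_right fun _ => ?_
        simp only [Part.mem_map_iff, decide_eq_false_iff_not]
        constructor
        · rintro ⟨w, hw, hw0⟩
          obtain ⟨w, rfl⟩ := Nat.exists_eq_succ_of_ne_zero hw0
          exact ⟨w, hw⟩
        · rintro ⟨w, hw⟩
          exact ⟨w + 1, hw, Nat.succ_ne_zero w⟩
    refine Iff.trans h1 ?_
    simp only [findUse_eq_some]
    constructor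
    · rintro ⟨h2, h3⟩
      obtain ⟨m₀, hm₀⟩ := (c _ 0).1 h2
      have h4 : ∀ k, ∃ m, k < v → ∃ w, θ (pre A m) (Nat.pair a k) = some (w + 1) := by
        intro k
        by_cases hk : k < v
        · obtain ⟨w, hw⟩ := h3 k hk
          obtain ⟨m, hm⟩ := (c _ _).1 hw
          exact ⟨m, fun _ => ⟨w, hm⟩⟩
        · exact ⟨0, fun hk' => absurd hk' hk⟩
      choose g hg using h4
      refine ⟨max (max m₀ v) ((Finset.range v).sup g), ?_, ?_, fun k hk => ?_⟩
      · rw [pre_length]
        exact (le_max_right _ _).trans (le_max_left _ _)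
      · exact h.common hm₀ ((le_max_left _ _).trans (le_max_left _ _))
      · obtain ⟨w, hw⟩ := hg k hk
        exact ⟨w, h.common hw ((Finset.le_sup (Finset.mem_range.2 hk)).trans (le_max_right _ _))⟩
    · rintro ⟨m, -, h2, h3⟩
      refine ⟨(c _ _).2 ⟨m, h2⟩, fun k hk => ?_⟩
      obtain ⟨w, hw⟩ := h3 k hk
      exact ⟨w, (c _ _).2 ⟨m, hw⟩⟩

/-! ### The converse -/

section Converse

variable {O : Set (ℕ →. ℕ)}

theorem recIn_prim {F : ℕ → ℕ} (hF : Primrec F) :
    Nat.RecursiveIn O (fun n => Part.some (F n)) :=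
  Nat.Primrec.recursiveIn (Primrec.nat_iff.1 hF)

theorem recIn_pair {a b : ℕ → ℕ} (ha : Nat.RecursiveIn O (fun n => Part.some (a n)))
    (hb : Nat.RecursiveIn O (fun n => Part.some (b n))) :
    Nat.RecursiveIn O (fun n => Part.some (Nat.pair (a n) (b n))) :=
  (Nat.RecursiveIn.pair ha hb).of_eq fun n => by simp [Seq.seq]

theorem recIn_comp {f : ℕ →. ℕ} {a : ℕ → ℕ} (hf : Nat.RecursiveIn O f)
    (ha : Nat.RecursiveIn O (fun n => Part.some (a n))) :
    Nat.RecursiveIn O (fun n => f (a n)) :=
  (Nat.RecursiveIn.comp hf ha).of_eq fun n => by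
    exact Part.bind_some (a n) f

theorem recursiveIn_pre (A : ℕ → Bool) (hA : Nat.RecursiveIn O (chi A)) :
    Nat.RecursiveIn O (fun p => Part.some (Encodable.encode (pre A p.unpair.2))) := by
  let F : ℕ → ℕ := fun z => Encodable.encode
    (((Encodable.decode z.unpair.1 : Option (List Bool)).getD []) ++ [decide (z.unpair.2 ≠ 0)])
  have hF : Primrec F := by
    refine Primrec.encode.comp (Primrec.list_append.comp ?_ ?_)
    · exact Primrec.option_getD.comp
        (Primrec.decode.comp (Primrec.fst.comp Primrec.unpair)) (Primrec.const [])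
    · refine Primrec.list_cons.comp ?_ (Primrec.const [])
      exact (PrimrecRel.comp Primrec.eq (Primrec.snd.comp Primrec.unpair)
        (Primrec.const 0)).not.decide
  have h0 : Nat.RecursiveIn O (fun _ => Part.some (Encodable.encode ([] : List Bool))) :=
    recIn_prim (Primrec.const _)
  have hy : Nat.RecursiveIn O (fun q => Part.some (A (q.unpair.2.unpair.1)).toNat) :=
    recIn_comp hA (a := fun q => q.unpair.2.unpair.1) (recIn_prim
      (Primrec.fst.comp (Primrec.unpair.comp (Primrec.snd.comp Primrec.unpair))))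
  have hi : Nat.RecursiveIn O (fun q => Part.some (q.unpair.2.unpair.2)) :=
    recIn_prim (Primrec.snd.comp (Primrec.unpair.comp (Primrec.snd.comp Primrec.unpair)))
  have h1 := recIn_comp (recIn_prim (O := O) hF) (recIn_pair hi hy)
  refine (Nat.RecursiveIn.prec h0 h1).of_eq fun p => ?_
  change (Nat.rec (Part.some (Encodable.encode ([] : List Bool))) (fun y IH => do
        let i ← IH
        Part.some (F (Nat.pair (Nat.pair p.unpair.1 (Nat.pair y i)).unpair.2.unpair.2
          (A (Nat.pair p.unpair.1 (Nat.pair y i)).unpair.2.unpair.1).toNat)))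
        p.unpair.2 : Part ℕ) = _
  generalize p.unpair.2 = n
  induction n with
  | zero => rfl
  | succ n ih =>
    change (Part.bind _ _ : Part ℕ) = _
    refine (congrArg (fun z => Part.bind z _) ih).trans ?_
    rw [Part.bind_some]
    simp only [Nat.unpair_pair, F, Encodable.encodek, Option.getD_some, pre_succ]
    cases A n <;> simp

/-- A partial function with a use function is recursive in the oracle. -/
theorem recursiveIn_of_use {A : ℕ → Bool} {f : ℕ →. ℕ} {θ : List Bool → ℕ → Option ℕ}
    (hA : Nat.RecursiveIn O (chi A)) (hθ : IsUse θ) (c : Computes θ A f) :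
    Nat.RecursiveIn O f := by
  let D : ℕ → Option ℕ := fun z =>
    θ ((Encodable.decode z.unpair.1 : Option (List Bool)).getD []) z.unpair.2
  have hD : Primrec D := hθ.prim.comp (Primrec.option_getD.comp
    (Primrec.decode.comp (Primrec.fst.comp Primrec.unpair)) (Primrec.const []))
    (Primrec.snd.comp Primrec.unpair)
  have hT : Nat.RecursiveIn O
      (fun p => Part.some (Nat.pair (Encodable.encode (pre A p.unpair.2)) p.unpair.1)) :=
    recIn_pair (recursiveIn_pre A hA) (recIn_prim (Primrec.fst.comp Primrec.unpair))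
  have hG : Primrec fun z => if (D z).isSome = true then 0 else 1 :=
    Primrec.ite (PrimrecRel.comp Primrec.eq (Primrec.option_isSome.comp hD) (Primrec.const true))
      (Primrec.const 0) (Primrec.const 1)
  have hV : Primrec fun z => (D z).getD 0 := Primrec.option_getD.comp hD (Primrec.const 0)
  have hs := Nat.RecursiveIn.rfind (recIn_comp (recIn_prim (O := O) hG) hT)
  have hfin := Nat.RecursiveIn.comp (recIn_comp (recIn_prim (O := O) hV) hT)
    (Nat.RecursiveIn.pair (recIn_prim (O := O) Primrec.id) hs)
  refine hfin.of_eq fun n => ?_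
  have hDp : ∀ m, D (Nat.pair (Encodable.encode (pre A m)) n) = θ (pre A m) n := by
    intro m
    simp [D]
  apply Part.ext
  intro v
  rw [c n v]
  set g : ℕ →. Bool := fun m => Part.map (fun w => decide (w = 0))
    (Part.some (if (D (Nat.pair (Encodable.encode (pre A (Nat.pair n m).unpair.2))
      (Nat.pair n m).unpair.1)).isSome = true then 0 else 1)) with hg
  have hgm : ∀ m b, b ∈ g m ↔ b = (θ (pre A m) n).isSome := by
    intro m b
    simp only [hg, Nat.unpair_pair, hDp, Part.map_some, Part.mem_some_iff]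
    cases h : (θ (pre A m) n).isSome <;> simp
  have hmem : (∃ m ∈ Nat.rfind g, v ∈ Part.some ((θ (pre A m) n).getD 0)) ↔
      ∃ m, θ (pre A m) n = some v := by
    constructor
    · rintro ⟨m, hm, hv⟩
      have h1 := Nat.rfind_spec hm
      rw [hgm] at h1
      obtain ⟨w, hw⟩ := Option.isSome_iff_exists.1 h1.symm
      rw [Part.mem_some_iff, hw, Option.getD_some] at hv
      exact ⟨m, hv ▸ hw⟩
    · rintro ⟨m, hm⟩
      have h1 : ∃ m, (θ (pre A m) n).isSome = true := ⟨m, by rw [hm]; rfl⟩
      refine ⟨Nat.find h1, ?_, ?_⟩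
      · refine (Nat.mem_rfind (p := g)).2 ⟨?_, fun {k} hk => ?_⟩
        · rw [hgm]; exact (Nat.find_spec h1).symm
        · rw [hgm]; exact (Bool.eq_false_iff.2 (Nat.find_min h1 hk)).symm
      · obtain ⟨w, hw⟩ := Option.isSome_iff_exists.1 (Nat.find_spec h1)
        rw [Part.mem_some_iff, hw, Option.getD_some]
        have h2 := hθ.common hw (Nat.find_min' h1 (by rw [hm]; rfl))
        rw [hm] at h2
        exact Option.some.inj h2
  rw [← hmem]
  change v ∈ Part.bind (Nat.pair <$> Part.some n <*> Nat.rfind g) _ ↔ _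
  rw [Part.mem_bind_iff]
  have hp : ∀ z, z ∈ (Nat.pair <$> Part.some n <*> Nat.rfind g) ↔
      ∃ m ∈ Nat.rfind g, z = Nat.pair n m := by
    intro z
    simp only [Seq.seq, Part.map_eq_map, Part.map_some, Part.bind_some, Part.mem_map_iff, Nat.mem_rfind, eq_comm]
  constructor
  · rintro ⟨z, hz, hv⟩
    obtain ⟨m, hm, rfl⟩ := (hp z).1 hz
    refine ⟨m, hm, ?_⟩
    simpa [hDp] using hv
  · rintro ⟨m, hm, hv⟩
    refine ⟨Nat.pair n m, (hp _).2 ⟨m, hm, rfl⟩, ?_⟩
    simpa [hDp] using hv

end Converse

/-- The use principle. -/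
theorem recursiveIn_iff_use (A : ℕ → Bool) (f : ℕ →. ℕ) :
    Nat.RecursiveIn {chi A} f ↔ ∃ θ, IsUse θ ∧ Computes θ A f :=
  ⟨exists_use, fun ⟨_, h, c⟩ => recursiveIn_of_use (Nat.RecursiveIn.oracle _ rfl) h c⟩

/-- The use principle for sets. -/
theorem turingReducible_iff_use (A B : ℕ → Bool) :
    TuringReducible (chi B) (chi A) ↔ ∃ θ : List Bool → ℕ → Option Bool, Primrec₂ θ ∧
      (∀ s t n b, s <+: t → θ s n = some b → θ t n = some b) ∧
      ∀ n, ∃ m, θ (pre A m) n = some (B n) := by
  rw [TuringReducible, RecursiveIn.iff_nat, recursiveIn_iff_use]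
  constructor
  · rintro ⟨θ, h, c⟩
    refine ⟨fun s n => (θ s n).map fun v => decide (v ≠ 0), ?_, ?_, fun n => ?_⟩
    · refine Primrec.option_map h.prim ?_
      exact ((PrimrecRel.comp Primrec.eq Primrec.snd (Primrec.const 0)).not.decide)
    · intro s t n b hst hb
      simp only [Option.map_eq_some_iff] at hb ⊢
      obtain ⟨v, hv, hb⟩ := hb
      exact ⟨v, h.mono _ _ _ _ hst hv, hb⟩
    · obtain ⟨m, hm⟩ := (c n (B n).toNat).1 (Part.mem_some _)
      refine ⟨m, ?_⟩
      change (θ (pre A m) n).map _ = _
      rw [hm]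
      cases B n <;> simp
  · rintro ⟨θ, hp, hm, hB⟩
    refine ⟨fun s n => (θ s n).map Bool.toNat, ⟨?_, ?_⟩, fun n v => ?_⟩
    · exact Primrec.option_map hp ((Primrec.dom_bool Bool.toNat).comp Primrec.snd)
    · intro s t n b hst hb
      simp only [Option.map_eq_some_iff] at hb ⊢
      obtain ⟨v, hv, hb⟩ := hb
      exact ⟨v, hm _ _ _ _ hst hv, hb⟩
    · obtain ⟨m, hmn⟩ := hB n
      simp only [chi, Part.mem_some_iff, Option.map_eq_some_iff]
      constructor
      · rintro rfl
        exact ⟨m, B n, hmn, rfl⟩
      · rintro ⟨m', b, hb, rfl⟩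
        have h1 := hm _ _ _ _ (pre_prefix A (le_max_left m m')) hmn
        have h2 := hm _ _ _ _ (pre_prefix A (le_max_right m m')) hb
        rw [h1] at h2
        rw [Option.some.inj h2]

/-! ### String maps -/

/-- The string map of a use function. -/
def toFn (θ : List Bool → ℕ → Option Bool) (s : List Bool) : List Bool :=
  (List.range ((List.range s.length).findIdx fun k => (θ s k).isNone)).map
    fun k => (θ s k).getD false

theorem lt_len_iff (θ : List Bool → ℕ → Option Bool) (s : List Bool) (n : ℕ) :
    n ≤ ((List.range s.length).findIdx fun k => (θ s k).isNone) ↔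
      n ≤ s.length ∧ ∀ k < n, (θ s k).isSome = true := by
  set p : ℕ → Bool := fun k => (θ s k).isNone with hp
  have hlen : (List.range s.length).findIdx p ≤ s.length := by
    simpa using List.findIdx_le_length (xs := List.range s.length) (p := p)
  constructor
  · intro h
    refine ⟨h.trans hlen, fun k hk => ?_⟩
    have h1 := List.not_of_lt_findIdx (hk.trans_le h)
    simpa [hp] using h1
  · rintro ⟨h1, h2⟩
    by_contra hc
    push Not at hc
    have hlt : (List.range s.length).findIdx p < (List.range s.length).length := by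
      rw [List.length_range]; omega
    have h4 : p ((List.range s.length)[(List.range s.length).findIdx p]'hlt) = true :=
      List.findIdx_getElem
    rw [List.getElem_range] at h4
    have h5 := h2 _ hc
    rw [Option.isSome_iff_ne_none] at h5
    exact h5 (Option.isNone_iff_eq_none.1 h4)

theorem toFn_length (θ : List Bool → ℕ → Option Bool) (s : List Bool) :
    (toFn θ s).length = (List.range s.length).findIdx fun k => (θ s k).isNone := by
  simp [toFn]

theorem isFn_toFn {θ : List Bool → ℕ → Option Bool} (hp : Primrec₂ θ)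
    (hm : ∀ s t n b, s <+: t → θ s n = some b → θ t n = some b) : IsFn (toFn θ) where
  prim := by
    refine Primrec.list_map ?_ ?_
    · refine Primrec.list_range.comp ?_
      refine Primrec.list_findIdx (Primrec.list_range.comp Primrec.list_length) ?_
      exact (Primrec.not.comp (Primrec.option_isSome.comp hp)).of_eq fun q => by simp
    · exact Primrec.option_getD.comp hp (Primrec.const false)
  mono s t hst := by
    have hL := (lt_len_iff θ s _).1 le_rfl
    have hle : (toFn θ s).length ≤ (toFn θ t).length := by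
      rw [toFn_length, toFn_length, lt_len_iff]
      refine ⟨hL.1.trans hst.length_le, fun k hk => ?_⟩
      obtain ⟨b, hb⟩ := Option.isSome_iff_exists.1 (hL.2 k hk)
      rw [hm _ _ _ _ hst hb]
      rfl
    rw [List.prefix_iff_eq_take]
    apply List.ext_getElem
    · rw [List.length_take, min_eq_left hle]
    · intro k h1 h2
      rw [List.getElem_take]
      simp only [toFn, List.getElem_map, List.getElem_range]
      rw [toFn_length] at h1
      obtain ⟨b, hb⟩ := Option.isSome_iff_exists.1 (hL.2 k h1)
      rw [hm _ _ _ _ hst hb, hb]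

theorem maps_toFn {θ : List Bool → ℕ → Option Bool} {Y X : Om}
    (hm : ∀ s t n b, s <+: t → θ s n = some b → θ t n = some b)
    (h : ∀ n, ∃ m, θ (pre Y m) n = some (X n)) : Maps (toFn θ) Y X := by
  have huniq : ∀ m n b, θ (pre Y m) n = some b → b = X n := by
    intro m n b hb
    obtain ⟨m', hm'⟩ := h n
    have h1 := hm _ _ _ _ (pre_prefix Y (le_max_left m m')) hb
    have h2 := hm _ _ _ _ (pre_prefix Y (le_max_right m m')) hm'
    rw [h1] at h2
    exact Option.some.inj h2
  refine ⟨fun m => ?_, fun n => ?_⟩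
  · have hL := (lt_len_iff θ (pre Y m) _).1 le_rfl
    apply List.ext_getElem
    · simp
    · intro k h1 h2
      rw [pre_getElem]
      simp only [toFn, List.getElem_map, List.getElem_range]
      rw [toFn_length] at h1
      obtain ⟨b, hb⟩ := Option.isSome_iff_exists.1 (hL.2 k h1)
      rw [hb]
      exact huniq m k b hb
  · choose g hg using h
    refine ⟨max n ((Finset.range n).sup g), ?_⟩
    rw [toFn_length, lt_len_iff, pre_length]
    refine ⟨le_max_left _ _, fun k hk => ?_⟩
    rw [hm _ _ _ _ (pre_prefix Y ((Finset.le_sup (f := g) (Finset.mem_range.2 hk)).trans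
      (le_max_right n _))) (hg k)]
    rfl

end Vale.Agent.P327.Bridge

namespace Vale.Agent.P327

open Bridge

/-- The relation `Red` is Turing reducibility of the characteristic functions. -/
theorem red_iff_turing (X Y : Om) :
    Red X Y ↔ TuringReducible (fun n => Part.some (X n).toNat)
      (fun n => Part.some (Y n).toNat) := by
  refine Iff.trans ?_ (turingReducible_iff_use Y X).symm
  constructor
  · rintro ⟨φ, hφ, h1, h2⟩
    refine ⟨fun s n => (φ s)[n]?, Primrec.list_getElem?.comp (hφ.prim.comp Primrec.fst) Primrec.snd,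
      ?_, ?_⟩
    · intro s t n b hst hb
      beta_reduce at hb ⊢
      obtain ⟨r, hr⟩ := hφ.mono s t hst
      have hlt : n < (φ s).length := by
        by_contra hc
        rw [List.getElem?_eq_none (not_lt.1 hc)] at hb
        simp at hb
      rw [← hr, List.getElem?_append_left hlt, hb]
    · intro n
      obtain ⟨m, hm⟩ := h2 (n + 1)
      refine ⟨m, ?_⟩
      beta_reduce
      rw [h1 m, pre_getElem?, if_pos (Nat.lt_of_succ_le hm)]
  · rintro ⟨θ, hp, hm, h⟩
    exact ⟨toFn θ, isFn_toFn hp hm, maps_toFn hm h⟩

end Vale.Agent.P327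
end
end

section

section

/-!
Auxiliary facts for the main argument: generic behaviour of Borel sets under finite conditions,
continuity and algebra of the maps used.
-/

open MeasureTheory Topology Filter

namespace Vale.Agent.P327

/-! ### algebra -/

theorem Om.add_apply (X Y : Om) (n : ℕ) : (X + Y) n = xor (X n) (Y n) := rfl

theorem tens_add (r r' a : Om) : tens (r + r') a = tens r a + tens r' a := by
  funext n
  show (xor (r _) (r' _) && a _) = xor (r _ && a _) (r' _ && a _)
  cases r n.unpair.1 <;> cases r' n.unpair.1 <;> cases a n.unpair.2 <;> rfl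

/-- Shift a real (single track). -/
def shift (n : ℕ) (a : Om) : Om := fun s => a (s + n)

theorem sh_tens (v a : Om) (n : ℕ) : sh (tens v (shift n a)) = tens v (shift (n + 1) a) := by
  funext p
  simp [sh, tens, shift, Nat.add_assoc, Nat.add_comm 1 n]

theorem tens_inj {a : Om} (ha : a ≠ 0) : Function.Injective (fun r => tens r a) := by
  intro r r' h
  obtain ⟨s, hs⟩ : ∃ s, a s ≠ false := by
    by_contra hcon
    push Not at hcon
    exact ha (funext hcon)
  have hs' : a s = true := by simpa using hs
  funext j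
  have := congrFun h (Nat.pair j s)
  simpa [tens, hs'] using this

theorem spread_ne_zero {a : Om} (ha : a ≠ 0) : spread a ≠ 0 := by
  intro h
  apply ha
  funext n
  have := congrFun h (n * n)
  simpa [spread, Nat.sqrt_eq] using this

theorem spread_sq (a : Om) (k : ℕ) : spread a (k * k) = a k := by
  simp [spread, Nat.sqrt_eq]

theorem spread_eq_true {a : Om} {n : ℕ} (h : spread a n = true) : ∃ k, n = k * k ∧ a k = true := by
  refine ⟨Nat.sqrt n, ?_⟩
  simp only [spread, Bool.and_eq_true, beq_iff_eq] at h
  exact ⟨h.1.symm, h.2⟩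

/-! ### continuity -/

theorem continuous_tens_left (a : Om) : Continuous (fun r => tens r a) := by
  refine continuous_pi fun n => ?_
  show Continuous (fun r : Om => (r n.unpair.1 && a n.unpair.2))
  have : Continuous (fun b : Bool => (b && a n.unpair.2)) := continuous_of_discreteTopology
  exact this.comp (continuous_apply (A := fun _ : ℕ => Bool) _)

theorem continuous_jn : Continuous (fun p : Om × Om => jn p.1 p.2) := by
  refine continuous_pi fun n => ?_
  unfold jn
  by_cases h : n % 2 = 0
  · simp only [h, if_true]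
    exact (continuous_apply (A := fun _ : ℕ => Bool) _).comp continuous_fst
  · simp only [h, if_false]
    exact (continuous_apply (A := fun _ : ℕ => Bool) _).comp continuous_snd

/-- The join as a homeomorphism. -/
def jnHomeo : (Om × Om) ≃ₜ Om where
  toFun p := jn p.1 p.2
  invFun X := (fun n => X (2 * n), fun n => X (2 * n + 1))
  left_inv p := by
    ext n
    · simp [jn]
    · have h1 : (2 * n + 1) % 2 ≠ 0 := by omega
      have h2 : (2 * n + 1) / 2 = n := by omega
      simp only [jn, if_neg h1, h2]
  right_inv X := by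
    funext n
    simp only [jn]
    by_cases h : n % 2 = 0
    · rw [if_pos h]; congr 1; omega
    · rw [if_neg h]; congr 1; omega
  continuous_toFun := continuous_jn
  continuous_invFun := by
    refine Continuous.prodMk ?_ ?_
    · exact continuous_pi fun n => continuous_apply (A := fun _ : ℕ => Bool) _
    · exact continuous_pi fun n => continuous_apply (A := fun _ : ℕ => Bool) _

/-! ### residual sets -/

theorem residual_comp_open {X Y : Type*} [TopologicalSpace X] [TopologicalSpace Y] {f : X → Y}
    (hc : Continuous f) (ho : IsOpenMap f) {P : Y → Prop} (h : ∀ᶠ y in residual Y, P y) :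
    ∀ᶠ x in residual X, P (f x) :=
  (tendsto_residual_of_isOpenMap hc ho).eventually h

theorem residual_jn {P : Om → Prop} (h : ∀ᶠ s in residual Om, P s) :
    ∀ᶠ p in residual (Om × Om), P (jn p.1 p.2) :=
  residual_comp_open jnHomeo.continuous jnHomeo.isOpenMap h

theorem residual_fst {X Y : Type*} [TopologicalSpace X] [TopologicalSpace Y] {P : X → Prop}
    (h : ∀ᶠ x in residual X, P x) : ∀ᶠ p in residual (X × Y), P p.1 :=
  residual_comp_open continuous_fst isOpenMap_fst h

theorem residual_snd {X Y : Type*} [TopologicalSpace X] [TopologicalSpace Y] {P : Y → Prop}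
    (h : ∀ᶠ y in residual Y, P y) : ∀ᶠ p in residual (X × Y), P p.2 :=
  residual_comp_open continuous_snd isOpenMap_snd h

theorem residual_shear {G Q : Type*} [TopologicalSpace G] [AddCommGroup G] [IsTopologicalAddGroup G]
    [TopologicalSpace Q] {P : G → Prop} (h : ∀ᶠ x in residual G, P x) {u : Q → G}
    (hu : Continuous u) : ∀ᶠ p in residual (G × Q), P (p.1 + u p.2) := by
  let e : (G × Q) ≃ₜ (G × Q) :=
    { toFun := fun p => (p.1 + u p.2, p.2)
      invFun := fun p => (p.1 - u p.2, p.2)
      left_inv := fun p => by simp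
      right_inv := fun p => by simp
      continuous_toFun := by (clear P h; fun_prop)
      continuous_invFun := by (clear P h; fun_prop) }
  have h1 : ∀ᶠ p in residual (G × Q), P p.1 := residual_fst h
  exact residual_comp_open e.continuous e.isOpenMap h1

/-- the finite condition `σ` forces generic points into `S` -/
def Forces (σ : List Bool) (S : Set Om) : Prop :=
  ∀ᶠ X in residual Om, pre X σ.length = σ → X ∈ S

def Forces₂ (σ τ : List Bool) (S : Set (Om × Om)) : Prop :=
  ∀ᶠ p in residual (Om × Om), pre p.1 σ.length = σ → pre p.2 τ.length = τ → p ∈ S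

theorem residual_forced (S : Set Om) : ∀ᶠ X in residual Om, ∀ σ, Forces σ S →
    pre X σ.length = σ → X ∈ S := by
  rw [eventually_countable_forall]; intro σ
  by_cases h : Forces σ S
  · filter_upwards [h] with X hX _; exact hX
  · exact Eventually.of_forall fun X h' => absurd h' h

theorem residual_forced₂ (S : Set (Om × Om)) : ∀ᶠ p in residual (Om × Om), ∀ σ τ, Forces₂ σ τ S →
    pre p.1 σ.length = σ → pre p.2 τ.length = τ → p ∈ S := by
  rw [eventually_countable_forall]; intro σ
  rw [eventually_countable_forall]; intro τ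
  by_cases h : Forces₂ σ τ S
  · filter_upwards [h] with X hX _; exact hX
  · exact Eventually.of_forall fun X h' => absurd h' h

end Vale.Agent.P327
end
end

section

section

/-!
The reading lemma: somewhere on the high tracks a single bit of the argument is visible in the
value.
-/

open MeasureTheory Topology Filter

namespace Vale.Agent.P327

/-- indicator of a finite set -/
def fz (s : Finset ℕ) : Om := fun q => decide (q ∈ s)

theorem reading (F : Om → Om) (hF : Measurable F) (f : Om → Om) (hf : ∀ X Y, f X = f Y → Red X Y)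
    (a : Om) (ha : a ≠ 0) : ∀ᶠ W in residual Om, ∀ᶠ r in residual Om, ∀ J,
      F (W + tens r a) = f (W + tens r a) →
      (∀ σ, pre r J <+: σ → ¬ IsMeagre ({r | F (W + tens r a) = f (W + tens r a)} ∩ cyl σ)) →
      ∃ g, J ≤ g.unpair.1 ∧ ∃ k, F (W + tens r a + unit g) k ≠ F (W + tens r a) k := by
  classical
  let N : ℕ → Set Om := fun J => {X | ∀ g, J ≤ g.unpair.1 → F (X + unit g) = F X}
  have hN : ∀ J, MeasurableSet (N J) := by
    intro J
    have : N J = ⋂ g : ℕ, {X : Om | J ≤ g.unpair.1 → F (X + unit g) = F X} := by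
      ext X; simp only [Set.mem_ofPred_eq, Set.mem_iInter, N]
    rw [this]
    refine MeasurableSet.iInter fun g => ?_
    by_cases hg : J ≤ g.unpair.1
    · simp only [hg, true_imp_iff]
      have m1 : Measurable (fun X : Om => X + unit g) := by fun_prop
      exact measurableSet_eq_fun (hF.comp m1) hF
    · simp only [hg, false_imp_iff]
      exact MeasurableSet.univ
  have R1 : ∀ᶠ X in residual Om, ∀ J, X ∈ N J → ∃ n, Forces (pre X n) (N J) := by
    rw [eventually_countable_forall]; intro J
    obtain ⟨U, hU, h⟩ := exists_open_eq (hN J)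
    filter_upwards [h] with X hX hXN
    obtain ⟨n, hn⟩ := exists_pre_subset hU (hX.1 hXN)
    refine ⟨n, ?_⟩
    unfold Forces
    rw [pre_length]
    filter_upwards [h] with X' hX' hp
    exact hX'.2 (hn X' hp)
  have R1' : ∀ᶠ X in residual Om, ∀ J σ, Forces σ (N J) → pre X σ.length = σ → X ∈ N J := by
    rw [eventually_countable_forall]; intro J
    exact residual_forced (N J)
  have R3 : ∀ᶠ X in residual Om, ∀ k, ∃ n, Forces (pre X n) {X' | F X' k = F X k} := by
    filter_upwards [generic_continuity hF] with X hX k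
    obtain ⟨n, hn⟩ := hX k
    refine ⟨n, ?_⟩
    unfold Forces
    rw [pre_length]
    exact hn
  have R3' : ∀ᶠ X in residual Om, ∀ k (b : Bool) σ, Forces σ {X' | F X' k = b} →
      pre X σ.length = σ → F X k = b := by
    rw [eventually_countable_forall]; intro k
    rw [eventually_countable_forall]; intro b
    exact residual_forced {X' | F X' k = b}
  have hct : Continuous (fun r : Om => tens r a) := continuous_tens_left a
  have C1 := kuratowski_ulam (residual_shear R1 hct)
  have C2 : ∀ᶠ q in residual (Om × Om), ∀ s : Finset ℕ,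
      (∀ J σ, Forces σ (N J) → pre (q.1 + tens q.2 a + fz s) σ.length = σ →
        q.1 + tens q.2 a + fz s ∈ N J) ∧
      (∀ k (b : Bool) σ, Forces σ {X' | F X' k = b} →
        pre (q.1 + tens q.2 a + fz s) σ.length = σ → F (q.1 + tens q.2 a + fz s) k = b) := by
    rw [eventually_countable_forall]; intro s
    have hu : Continuous (fun r : Om => tens r a + fz s) := hct.add continuous_const
    filter_upwards [residual_shear R1' hu, residual_shear R3' hu] with q h1 h2
    simp only [← add_assoc] at h1 h2
    exact ⟨h1, h2⟩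
  have C2' := kuratowski_ulam C2
  have C3 := kuratowski_ulam (residual_shear R3 hct)
  filter_upwards [C1, C2', C3] with W h1 h2 h3
  filter_upwards [h1, h2] with r k1 k2 J hFf hnm
  by_contra hcon
  push Not at hcon
  set X0 : Om := W + tens r a with hX0
  have hX0N : X0 ∈ N J := fun g hg => funext fun k => hcon g hg k
  obtain ⟨n0, hn0⟩ := k1 J hX0N
  set p : ℕ := max n0 J with hp
  have hcount : ∀ᶠ r'' in residual Om, ¬ Red (W + tens r'' a) X0 := by
    have hc : {r'' : Om | Red (W + tens r'' a) X0}.Countable := by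
      have hinj : Function.Injective (fun r'' : Om => W + tens r'' a) := by
        intro x y hxy
        exact tens_inj ha (add_left_cancel hxy)
      exact (countable_red X0).preimage_of_injOn (f := fun r'' : Om => W + tens r'' a)
        hinj.injOn
    exact isMeagre_of_countable hc
  obtain ⟨r'', ⟨hS, hcyl⟩, hnr, h3r⟩ :=
    exists_mem_of_not_isMeagre (hnm (pre r p) (pre_prefix r (le_max_right _ _)))
      (hcount.and h3)
  apply hnr
  apply hf
  change F (W + tens r'' a) = f (W + tens r'' a) at hS
  rw [← hS, ← hFf]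
  have hagree : ∀ i < p, r'' i = r i := by
    have h0 : pre r'' (pre r p).length = pre r p := hcyl
    rw [pre_length] at h0
    exact (pre_eq_iff _ _ _).1 h0
  set D : Om := tens (r + r'') a with hD
  have hX'' : W + tens r'' a = X0 + D := by
    rw [hD, tens_add, hX0]
    have : W + tens r a + (tens r a + tens r'' a) = W + tens r'' a + (tens r a + tens r a) := by abel
    rw [this, om_add_self, add_zero]
  have hDlow : ∀ i, D i = true → p ≤ i.unpair.1 ∧ p ≤ i := by
    intro i hi
    have h4 : (r + r'') i.unpair.1 = true := by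
      have : ((r + r'') i.unpair.1 && a i.unpair.2) = true := hi
      rw [Bool.and_eq_true] at this
      exact this.1
    have h5 : ¬ i.unpair.1 < p := by
      intro hlt
      rw [Om.add_apply, hagree _ hlt] at h4
      simp at h4
    have h6 : i.unpair.1 ≤ i := Nat.unpair_left_le i
    omega
  let s : ℕ → Finset ℕ := fun i => (Finset.range i).filter (fun q => D q = true)
  have hs : ∀ i q, fz (s i) q = (decide (q < i) && D q) := by
    intro i q
    simp only [fz, s, Finset.mem_filter, Finset.mem_range]
    by_cases h1 : q < i <;> cases h2 : D q <;> simp [h1]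
  have hpre0 : ∀ i, pre (X0 + fz (s i)) n0 = pre X0 n0 := by
    intro i
    rw [pre_eq_iff]; intro q hq
    rw [Om.add_apply, hs]
    have : D q = false := by
      by_contra hne
      have h7 := (hDlow q (by simpa using hne)).2
      omega
    rw [this]; simp
  have hstep : ∀ i, F (X0 + fz (s i)) = F X0 := by
    intro i
    induction i with
    | zero =>
      have : fz (s 0) = 0 := by
        funext q; rw [hs]; simp; rfl
      rw [this, add_zero]
    | succ i ih =>
      by_cases hDi : D i = true
      · have e : fz (s (i + 1)) = fz (s i) + unit i := by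
          funext q
          rw [Om.add_apply, hs, hs]
          simp only [unit]
          by_cases hq : q = i
          · subst hq; simp [hDi]
          · have : (q < i + 1) ↔ q < i := by omega
            simp [hq, this]
        rw [e, ← add_assoc, ← ih]
        have hm : X0 + fz (s i) ∈ N J := (k2 (s i)).1 J _ hn0 (by rw [pre_length]; exact hpre0 i)
        exact hm i (le_trans (le_max_right _ _) (hDlow i hDi).1)
      · have e : fz (s (i + 1)) = fz (s i) := by
          funext q
          rw [hs, hs]
          by_cases hq : q = i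
          · subst hq; simp [hDi]
          · have : (q < i + 1) ↔ q < i := by omega
            simp [this]
        rw [e]; exact ih
  funext k
  obtain ⟨n, hn⟩ := h3r k
  change Forces (pre (W + tens r'' a) n) {X' | F X' k = F (W + tens r'' a) k} at hn
  have h8 := (k2 (s n)).2 k _ _ hn (by
    rw [pre_length, pre_eq_iff]; intro q hq
    rw [hX'', Om.add_apply, Om.add_apply, hs]; simp [hq])
  rw [← h8]
  exact congrFun (hstep n) k

end Vale.Agent.P327
end
end

section

section

/-!
The main argument.
-/

open MeasureTheory Topology Filter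

namespace Vale.Agent.P327

/-- Window lemma. -/
theorem window {a v : Om} {js ss m : ℕ} (hg : Nat.pair js ss < m)
    (hv : ∀ j < m, v j = decide (j = js)) {k : ℕ} (hk : m ≤ k) {p : ℕ} (hp : p < m) :
    tens v (shift (k * k - ss) (spread a)) p = (decide (p = Nat.pair js ss) && a k) := by
  have hj : p.unpair.1 < m := lt_of_le_of_lt (Nat.unpair_left_le p) hp
  have hs : p.unpair.2 < m := lt_of_le_of_lt (Nat.unpair_right_le p) hp
  have hss : ss < m := lt_of_le_of_lt (Nat.right_le_pair js ss) hg
  have hkk : k ≤ k * k := Nat.le_mul_self k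
  simp only [tens, shift, hv _ hj]
  by_cases h1 : p.unpair.1 = js
  · by_cases h2 : p.unpair.2 = ss
    · have hpg : p = Nat.pair js ss := by rw [← h1, ← h2, Nat.pair_unpair]
      have h3 : p.unpair.2 + (k * k - ss) = k * k := by omega
      rw [h3, spread_sq]
      simp [h1, hpg]
    · have hpg : p ≠ Nat.pair js ss := by
        rintro rfl; simp at h2
      have h3 : spread a (p.unpair.2 + (k * k - ss)) = false := by
        by_contra hne
        have ht : spread a (p.unpair.2 + (k * k - ss)) = true := by simpa only [Bool.not_eq_false] using hne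
        obtain ⟨i, hi, -⟩ := spread_eq_true ht
        rcases lt_trichotomy i k with h | h | h
        · have : i * i ≤ (k - 1) * (k - 1) := Nat.mul_le_mul (by omega) (by omega)
          obtain ⟨k', rfl⟩ : ∃ k', k = k' + 1 := ⟨k - 1, by omega⟩
          simp only [Nat.add_sub_cancel] at this
          have e : (k' + 1) * (k' + 1) = k' * k' + 2 * k' + 1 := by ring
          omega
        · subst h; omega
        · have : (k + 1) * (k + 1) ≤ i * i := Nat.mul_le_mul (by omega) (by omega)
          have e : (k + 1) * (k + 1) = k * k + 2 * k + 1 := by ring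
          omega
      rw [h3]; simp [hpg]
  · have hpg : p ≠ Nat.pair js ss := by
      rintro rfl; simp at h1
    simp only [h1, decide_false, Bool.false_and, hpg]

theorem Auto.g_red_self_of_ne (π : Auto) (a : Om) (ha : a ≠ 0) : Red (π.g a) a := by
  by_contra hcon
  obtain ⟨F, hF, hrep⟩ := π.exists_borel
  set ah : Om := spread a with hah
  have hah0 : ah ≠ 0 := spread_ne_zero ha
  let Rt : (ℕ × ℕ × ℕ) × (ℕ × ℕ × ℕ) → Set (Om × Om) := fun t =>
    {p | Maps (enum t.2.2.1) (jn (F t.1.1 p.1) (F t.1.2.1 p.2)) (F t.1.2.2 (sh p.1 + p.2)) ∧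
      Maps (enum t.2.2.2) (jn (F t.1.2.2 (sh p.1 + p.2)) (F t.2.1 (sh p.1 + p.2 + p.1)))
        (F t.1.1 p.1)}
  have hsh : Measurable sh := continuous_sh.measurable
  have hRt : ∀ t, MeasurableSet (Rt t) := by
    intro t
    have m1 : Measurable (fun p : Om × Om => sh p.1 + p.2) := by fun_prop
    have m2 : Measurable (fun p : Om × Om => sh p.1 + p.2 + p.1) := by fun_prop
    refine MeasurableSet.inter ?_ ?_
    · have hm : Measurable (fun p : Om × Om =>
          (jn (F t.1.1 p.1) (F t.1.2.1 p.2), F t.1.2.2 (sh p.1 + p.2))) := by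
        refine Measurable.prodMk ?_ ((hF _).comp m1)
        exact measurable_jn.comp (((hF _).comp measurable_fst).prodMk ((hF _).comp measurable_snd))
      exact hm (measurableSet_maps (enum t.2.2.1))
    · have hm : Measurable (fun p : Om × Om =>
          (jn (F t.1.2.2 (sh p.1 + p.2)) (F t.2.1 (sh p.1 + p.2 + p.1)), F t.1.1 p.1)) := by
        refine Measurable.prodMk ?_ ((hF _).comp measurable_fst)
        exact measurable_jn.comp (((hF _).comp m1).prodMk ((hF _).comp m2))
      exact hm (measurableSet_maps (enum t.2.2.2))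
  -- types exist generically
  have H1 : ∀ᶠ p in residual (Om × Om), ∃ t, F t.1.1 p.1 = π.f p.1 ∧ F t.1.2.1 p.2 = π.f p.2 ∧
      F t.2.1 (sh p.1 + p.2 + p.1) = π.f (sh p.1 + p.2 + p.1) ∧ p ∈ Rt t := by
    filter_upwards [residual_fst (Y := Om) hrep, residual_snd (X := Om) hrep, residual_shadd hrep,
      residual_shadd' hrep] with p h1 h2 h3 h4
    obtain ⟨c, hc⟩ := h1
    obtain ⟨a0, ha0⟩ := h2
    obtain ⟨b, hb⟩ := h3
    obtain ⟨d, hd⟩ := h4
    have r1 : Red (F b (sh p.1 + p.2)) (jn (F c p.1) (F a0 p.2)) := by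
      rw [hb, hc, ha0]
      refine Red.trans ?_ (π.f_jn _ _)
      rw [← π.f_red]
      refine (red_add _ _).trans (jn_mono (red_sh _) (Red.refl _))
    have r2 : Red (F c p.1) (jn (F b (sh p.1 + p.2)) (F d (sh p.1 + p.2 + p.1))) := by
      rw [hb, hc, hd]
      refine Red.trans ?_ (π.f_jn _ _)
      rw [← π.f_red]
      have : p.1 = (sh p.1 + p.2) + (sh p.1 + p.2 + p.1) := by
        rw [← add_assoc, om_add_self, zero_add]
      conv_lhs => rw [this]
      exact red_add _ _
    obtain ⟨e, he⟩ := red_iff_enum.1 r1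
    obtain ⟨e', he'⟩ := red_iff_enum.1 r2
    exact ⟨((c, a0, b), (d, e, e')), hc, ha0, hd, he, he'⟩
  have H2 : ∀ᶠ p in residual (Om × Om), ∀ t, p ∈ Rt t → ∃ n, Forces₂ (pre p.1 n) (pre p.2 n) (Rt t) := by
    rw [eventually_countable_forall]; intro t
    filter_upwards [generic_rel (hRt t)] with p hp hpt
    obtain ⟨n, hn⟩ := hp hpt
    refine ⟨n, ?_⟩
    unfold Forces₂
    simpa only [pre_length] using hn
  have H2' : ∀ᶠ p in residual (Om × Om), ∀ t σ τ, Forces₂ σ τ (Rt t) →
      pre p.1 σ.length = σ → pre p.2 τ.length = τ → p ∈ Rt t := by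
    rw [eventually_countable_forall]; intro t
    exact residual_forced₂ (Rt t)
  have H3 : ∀ᶠ X in residual Om, ∀ c k, ∃ n, Forces (pre X n) {X' | F c X' k = F c X k} := by
    rw [eventually_countable_forall]; intro c
    filter_upwards [generic_continuity (hF c)] with X hX k
    obtain ⟨n, hn⟩ := hX k
    refine ⟨n, ?_⟩
    unfold Forces
    rw [pre_length]
    exact hn
  have H3' : ∀ᶠ X in residual Om, ∀ c k (b : Bool) σ, Forces σ {X' | F c X' k = b} →
      pre X σ.length = σ → F c X k = b := by
    rw [eventually_countable_forall]; intro c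
    rw [eventually_countable_forall]; intro k
    rw [eventually_countable_forall]; intro b
    exact residual_forced {X' | F c X' k = b}
  have H5 : ∀ᶠ q in residual ((Om × Om) × (Om × Om)),
      ¬ Red (π.g a) (jn a (jn (jn q.1.1 q.1.2) (jn q.2.1 q.2.2))) := by
    have h0 : ∀ᶠ s in residual Om, ¬ Red (π.g a) (jn a s) := by
      by_contra hne
      exact hcon (not_meagre_red hne)
    have h1 := residual_jn h0
    exact residual_comp_open (X := (Om × Om) × (Om × Om)) (Y := Om × Om)
      (f := Prod.map (fun p : Om × Om => jn p.1 p.2) (fun p : Om × Om => jn p.1 p.2))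
      (continuous_jn.prodMap continuous_jn) (jnHomeo.isOpenMap.prodMap jnHomeo.isOpenMap) h1
  -- generic choices
  have A1 : ∀ᶠ q in residual ((Om × Om) × (Om × Om)), ∀ n t σ τ, Forces₂ σ τ (Rt t) →
      pre (q.1.1 + tens q.2.1 ah + tens (q.2.1 + q.2.2) (shift n ah)) σ.length = σ →
      pre q.1.2 τ.length = τ →
      (q.1.1 + tens q.2.1 ah + tens (q.2.1 + q.2.2) (shift n ah), q.1.2) ∈ Rt t := by
    rw [eventually_countable_forall]; intro n
    have hu : Continuous (fun r : Om × Om =>
        ((tens r.1 ah + tens (r.1 + r.2) (shift n ah), (0 : Om)) : Om × Om)) := by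
      refine Continuous.prodMk ?_ continuous_const
      exact ((continuous_tens_left ah).comp continuous_fst).add
        ((continuous_tens_left (shift n ah)).comp (continuous_fst.add continuous_snd))
    filter_upwards [residual_shear H2' hu] with q hq t σ τ hf h1 h2
    have := hq t σ τ hf
    simp only [Prod.fst_add, Prod.snd_add, add_zero, ← add_assoc] at this
    have h3 := this h1 h2
    have e : (q.1.1 + tens q.2.1 ah + tens (q.2.1 + q.2.2) (shift n ah), q.1.2)
      = q.1 + (tens q.2.1 ah + tens (q.2.1 + q.2.2) (shift n ah), (0 : Om)) := by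
      ext1 <;> simp [add_assoc]
    rw [e]; exact h3
  have A2 : ∀ᶠ q in residual ((Om × Om) × (Om × Om)), ∀ n t σ τ, Forces₂ σ τ (Rt t) →
      pre (q.1.1 + tens q.2.1 ah + tens (q.2.1 + q.2.2) (shift n ah)) σ.length = σ →
      pre (q.1.2 + tens (q.2.1 + q.2.2) (shift n ah) + tens (q.2.1 + q.2.2) (shift (n + 1) ah))
        τ.length = τ →
      (q.1.1 + tens q.2.1 ah + tens (q.2.1 + q.2.2) (shift n ah),
        q.1.2 + tens (q.2.1 + q.2.2) (shift n ah) + tens (q.2.1 + q.2.2) (shift (n + 1) ah))
        ∈ Rt t := by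
    rw [eventually_countable_forall]; intro n
    have hu : Continuous (fun r : Om × Om =>
        ((tens r.1 ah + tens (r.1 + r.2) (shift n ah),
          tens (r.1 + r.2) (shift n ah) + tens (r.1 + r.2) (shift (n + 1) ah)) : Om × Om)) := by
      refine Continuous.prodMk ?_ ?_
      · exact ((continuous_tens_left ah).comp continuous_fst).add
          ((continuous_tens_left (shift n ah)).comp (continuous_fst.add continuous_snd))
      · exact ((continuous_tens_left (shift n ah)).comp (continuous_fst.add continuous_snd)).add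
          ((continuous_tens_left (shift (n + 1) ah)).comp (continuous_fst.add continuous_snd))
    filter_upwards [residual_shear H2' hu] with q hq t σ τ hf h1 h2
    have := hq t σ τ hf
    simp only [Prod.fst_add, Prod.snd_add, ← add_assoc] at this
    have h3 := this h1 h2
    have e : (q.1.1 + tens q.2.1 ah + tens (q.2.1 + q.2.2) (shift n ah),
        q.1.2 + tens (q.2.1 + q.2.2) (shift n ah) + tens (q.2.1 + q.2.2) (shift (n + 1) ah))
      = q.1 + (tens q.2.1 ah + tens (q.2.1 + q.2.2) (shift n ah),
        tens (q.2.1 + q.2.2) (shift n ah) + tens (q.2.1 + q.2.2) (shift (n + 1) ah)) := by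
      ext1 <;> simp [add_assoc]
    rw [e]; exact h3
  have A3 : ∀ᶠ q in residual ((Om × Om) × (Om × Om)), ∀ n c k (b : Bool) σ,
      Forces σ {X' | F c X' k = b} →
      pre (q.1.1 + tens q.2.1 ah + tens (q.2.1 + q.2.2) (shift n ah)) σ.length = σ →
      F c (q.1.1 + tens q.2.1 ah + tens (q.2.1 + q.2.2) (shift n ah)) k = b := by
    rw [eventually_countable_forall]; intro n
    have hu : Continuous (fun r : Om × Om =>
        ((tens r.1 ah + tens (r.1 + r.2) (shift n ah), (0 : Om)) : Om × Om)) := by
      refine Continuous.prodMk ?_ continuous_const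
      exact ((continuous_tens_left ah).comp continuous_fst).add
        ((continuous_tens_left (shift n ah)).comp (continuous_fst.add continuous_snd))
    filter_upwards [residual_shear (residual_fst (Y := Om) H3') hu] with q hq c k b σ hf h1
    have := hq c k b σ hf
    simp only [Prod.fst_add, ← add_assoc] at this
    exact this h1
  have B : ∀ᶠ q in residual ((Om × Om) × Om),
      (∃ t, F t.1.1 (q.1.1 + tens q.2 ah) = π.f (q.1.1 + tens q.2 ah) ∧ F t.1.2.1 q.1.2 = π.f q.1.2 ∧
        F t.2.1 (sh (q.1.1 + tens q.2 ah) + q.1.2 + (q.1.1 + tens q.2 ah)) =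
          π.f (sh (q.1.1 + tens q.2 ah) + q.1.2 + (q.1.1 + tens q.2 ah)) ∧
        (q.1.1 + tens q.2 ah, q.1.2) ∈ Rt t) ∧
      (∀ t, (q.1.1 + tens q.2 ah, q.1.2) ∈ Rt t →
        ∃ n, Forces₂ (pre (q.1.1 + tens q.2 ah) n) (pre q.1.2 n) (Rt t)) := by
    have hu : Continuous (fun r : Om => ((tens r ah, (0 : Om)) : Om × Om)) :=
      (continuous_tens_left ah).prodMk continuous_const
    filter_upwards [residual_shear H1 hu, residual_shear H2 hu] with q h1 h2
    have e : q.1 + (tens q.2 ah, (0 : Om)) = (q.1.1 + tens q.2 ah, q.1.2) := by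
      ext1 <;> simp
    rw [e] at h1 h2
    exact ⟨h1, h2⟩
  have B3 : ∀ᶠ q in residual ((Om × Om) × Om), ∀ g c k, ∃ n,
      Forces (pre (q.1.1 + tens q.2 ah + unit g) n)
        {X' | F c X' k = F c (q.1.1 + tens q.2 ah + unit g) k} := by
    rw [eventually_countable_forall]; intro g
    have hu : Continuous (fun r : Om => ((tens r ah + unit g, (0 : Om)) : Om × Om)) :=
      ((continuous_tens_left ah).add continuous_const).prodMk continuous_const
    filter_upwards [residual_shear (residual_fst (Y := Om) H3) hu] with q h1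
    simpa only [Prod.fst_add, ← add_assoc] using h1
  have B3' : ∀ᶠ q in residual ((Om × Om) × Om), ∀ c k, ∃ n,
      Forces (pre (q.1.1 + tens q.2 ah) n)
        {X' | F c X' k = F c (q.1.1 + tens q.2 ah) k} := by
    have hu : Continuous (fun r : Om => ((tens r ah, (0 : Om)) : Om × Om)) :=
      (continuous_tens_left ah).prodMk continuous_const
    filter_upwards [residual_shear (residual_fst (Y := Om) H3) hu] with q h1
    simpa only [Prod.fst_add, ← add_assoc] using h1
  have hread : ∀ᶠ W in residual Om, ∀ c, ∀ᶠ r in residual Om, ∀ J,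
      F c (W + tens r ah) = π.f (W + tens r ah) →
      (∀ σ, pre r J <+: σ →
        ¬ IsMeagre ({r | F c (W + tens r ah) = π.f (W + tens r ah)} ∩ cyl σ)) →
      ∃ g, J ≤ g.unpair.1 ∧ ∃ k, F c (W + tens r ah + unit g) k ≠ F c (W + tens r ah) k := by
    rw [eventually_countable_forall]; intro c
    refine reading (F c) (hF c) π.f ?_ ah hah0
    intro X Y hXY
    rw [π.f_red, hXY]; exact Red.refl _
  have KU1 := kuratowski_ulam (A1.and (A2.and (A3.and H5)))
  have KU2 := kuratowski_ulam (B.and (B3.and B3'))
  obtain ⟨⟨W, Y⟩, hKU1, hKU2, hrd⟩ :=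
    (dense_of_mem_residual (KU1.and (KU2.and (residual_fst (Y := Om) hread)))).nonempty
  have hloc : ∀ᶠ r in residual Om, ∀ c, r ∈ {r | F c (W + tens r ah) = π.f (W + tens r ah)} →
      ∃ n, ∀ σ : List Bool, pre r n <+: σ →
        ¬ IsMeagre ({r | F c (W + tens r ah) = π.f (W + tens r ah)} ∩ cyl σ) := by
    rw [eventually_countable_forall]; intro c
    exact everywhere_nonmeagre _
  have hrd' : ∀ᶠ r in residual Om, ∀ c, ∀ J,
      F c (W + tens r ah) = π.f (W + tens r ah) →
      (∀ σ, pre r J <+: σ →
        ¬ IsMeagre ({r | F c (W + tens r ah) = π.f (W + tens r ah)} ∩ cyl σ)) →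
      ∃ g, J ≤ g.unpair.1 ∧ ∃ k, F c (W + tens r ah + unit g) k ≠ F c (W + tens r ah) k := by
    rw [eventually_countable_forall]; intro c
    exact hrd c
  obtain ⟨r, hr1, hr2, hr3, hr4⟩ :=
    (dense_of_mem_residual ((kuratowski_ulam hKU1).and (hKU2.and (hloc.and hrd')))).nonempty
  obtain ⟨⟨⟨t, hSc, hSa, hSd, htR⟩, hloc2⟩, hC1, hC2⟩ := hr2
  -- the data
  set X0 : Om := W + tens r ah with hX0
  change F t.1.1 X0 = π.f X0 at hSc
  obtain ⟨n1, hn1⟩ := hloc2 t htR
  obtain ⟨n2, hn2⟩ := hr3 t.1.1 hSc
  set J : ℕ := max n1 n2 with hJ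
  have hJ1 : n1 ≤ J := le_max_left _ _
  have hJ2 : n2 ≤ J := le_max_right _ _
  have hnm : ∀ σ : List Bool, pre r J <+: σ →
      ¬ IsMeagre ({r | F t.1.1 (W + tens r ah) = π.f (W + tens r ah)} ∩ cyl σ) :=
    fun σ hσ => hn2 σ ((pre_prefix r hJ2).trans hσ)
  obtain ⟨g, hg, k0, hk0⟩ := hr4 t.1.1 J hSc hnm
  obtain ⟨n3, hn3⟩ := hC2 t.1.1 k0
  obtain ⟨n4, hn4⟩ := hC1 g t.1.1 k0
  set js : ℕ := g.unpair.1 with hjs
  set ss : ℕ := g.unpair.2 with hss
  have hgp : Nat.pair js ss = g := Nat.pair_unpair g
  set m : ℕ := max (max n3 n4) (max (g + 1) J) with hm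
  have hm3 : n3 ≤ m := by omega
  have hm4 : n4 ≤ m := by omega
  have hmg : g < m := by omega
  have hmJ : J ≤ m := by omega
  have hjsg : js ≤ g := Nat.unpair_left_le g
  have hpreσ : pre r J <+: pre (r + unit js) m := by
    have : pre r J = pre (r + unit js) J := by
      rw [pre_eq_iff]; intro i hi
      have hne : i ≠ js := by omega
      rw [Om.add_apply]; simp [unit, hne]
    rw [this]; exact pre_prefix _ hmJ
  obtain ⟨r', ⟨hr'S, hr'c⟩, hr'1, hr'2, hr'3, hr'4⟩ :=
    exists_mem_of_not_isMeagre (hnm _ hpreσ) hr1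
  change F t.1.1 (W + tens r' ah) = π.f (W + tens r' ah) at hr'S
  have hr'c' : ∀ i < m, r' i = (r + unit js) i := by
    have : pre r' m = pre (r + unit js) m := by
      have h0 : pre r' (pre (r + unit js) m).length = pre (r + unit js) m := hr'c
      simpa only [pre_length] using h0
    exact (pre_eq_iff _ _ _).1 this
  set v : Om := r + r' with hv
  have hvj : ∀ j < m, v j = decide (j = js) := by
    intro j hj
    rw [hv, Om.add_apply, hr'c' j hj, Om.add_apply]
    simp only [unit]
    cases r j <;> simp
  set z : ℕ → Om := fun n => tens v (shift n ah) with hz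
  have hzsh : ∀ n, sh (z n) = z (n + 1) := fun n => sh_tens v ah n
  have hzlow : ∀ n, ∀ p < J, z n p = false := by
    intro n p hp
    have h1 : p.unpair.1 ≤ p := Nat.unpair_left_le p
    show (v p.unpair.1 && shift n ah p.unpair.2) = false
    rw [hvj _ (by omega)]
    have : p.unpair.1 ≠ js := by omega
    simp [this]
  have hpre1 : ∀ n, pre (X0 + z n) n1 = pre X0 n1 := by
    intro n; rw [pre_eq_iff]; intro i hi
    rw [Om.add_apply, hzlow n i (by omega)]; simp
  have hpre2 : ∀ n, pre (Y + z n + z (n + 1)) n1 = pre Y n1 := by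
    intro n; rw [pre_eq_iff]; intro i hi
    rw [Om.add_apply, Om.add_apply, hzlow n i (by omega), hzlow (n + 1) i (by omega)]; simp
  have hR1 : ∀ n, (X0 + z n, Y) ∈ Rt t := by
    intro n
    refine hr'1 n t _ _ hn1 ?_ ?_
    · rw [pre_length]; exact hpre1 n
    · rw [pre_length]
  have hR2 : ∀ n, (X0 + z n, Y + z n + z (n + 1)) ∈ Rt t := by
    intro n
    refine hr'2 n t _ _ hn1 ?_ ?_
    · rw [pre_length]; exact hpre1 n
    · rw [pre_length]; exact hpre2 n
  set δ : Om := sh X0 + Y + X0 with hδ
  let G : ℕ → Om := fun n => F t.1.1 (X0 + z n)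
  let M : ℕ → Om := fun n => F t.1.2.2 (sh X0 + z (n + 1) + Y)
  have e1 : ∀ n, sh (X0 + z n) + Y = sh X0 + z (n + 1) + Y := by
    intro n; rw [sh_add, hzsh]
  have h1 : ∀ n, Maps (enum t.2.2.1) (jn (G n) (F t.1.2.1 Y)) (M n) := by
    intro n
    have := (hR1 n).1
    change Maps (enum t.2.2.1) (jn (F t.1.1 (X0 + z n)) (F t.1.2.1 Y))
      (F t.1.2.2 (sh (X0 + z n) + Y)) at this
    rw [e1] at this
    exact this
  have h2 : ∀ n, Maps (enum t.2.2.2) (jn (M n) (F t.2.1 δ)) (G (n + 1)) := by
    intro n
    have := (hR2 (n + 1)).2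
    change Maps (enum t.2.2.2)
      (jn (F t.1.2.2 (sh (X0 + z (n + 1)) + (Y + z (n + 1) + z (n + 1 + 1))))
        (F t.2.1 (sh (X0 + z (n + 1)) + (Y + z (n + 1) + z (n + 1 + 1)) + (X0 + z (n + 1)))))
      (F t.1.1 (X0 + z (n + 1))) at this
    have e2 : sh (X0 + z (n + 1)) + (Y + z (n + 1) + z (n + 1 + 1)) = sh X0 + z (n + 1) + Y := by
      rw [sh_add, hzsh]
      have : sh X0 + z (n + 1 + 1) + (Y + z (n + 1) + z (n + 1 + 1))
        = sh X0 + z (n + 1) + Y + (z (n + 1 + 1) + z (n + 1 + 1)) := by abel
      rw [this, om_add_self, add_zero]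
    have e3 : sh X0 + z (n + 1) + Y + (X0 + z (n + 1)) = δ := by
      have : sh X0 + z (n + 1) + Y + (X0 + z (n + 1))
        = sh X0 + Y + X0 + (z (n + 1) + z (n + 1)) := by abel
      rw [this, om_add_self, add_zero]
    rw [e2, e3] at this
    exact this
  have hit := red_iter₂ (isFn_enum _) (isFn_enum _) G M (F t.1.2.1 Y) (F t.2.1 δ) h1 h2
  -- decoding
  have hdec : Red a (ofCols G) := by
    refine red_decode G a ss k0 m (F t.1.1 X0 k0) ?_
    intro k hk
    have hwin : ∀ p < m, z (k * k - ss) p = (decide (p = g) && a k) := by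
      intro p hp
      have := window (a := a) (v := v) (js := js) (ss := ss) (m := m) (by rw [hgp]; exact hmg)
        hvj hk hp
      rw [hgp] at this
      exact this
    show a k = xor (F t.1.1 (X0 + z (k * k - ss)) k0) (F t.1.1 X0 k0)
    cases hak : a k with
    | false =>
      have hp0 : pre (X0 + z (k * k - ss)) n3 = pre X0 n3 := by
        rw [pre_eq_iff]; intro i hi
        rw [Om.add_apply, hwin i (by omega), hak]; simp
      have := hr'3 (k * k - ss) t.1.1 k0 (F t.1.1 X0 k0) _ hn3 (by rw [pre_length]; exact hp0)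
      rw [show F t.1.1 (X0 + z (k * k - ss)) k0 = F t.1.1 X0 k0 from this]
      simp
    | true =>
      have hp0 : pre (X0 + z (k * k - ss)) n4 = pre (X0 + unit g) n4 := by
        rw [pre_eq_iff]; intro i hi
        rw [Om.add_apply, hwin i (by omega), hak, Om.add_apply]; simp [unit]
      have := hr'3 (k * k - ss) t.1.1 k0 (F t.1.1 (X0 + unit g) k0) _ hn4
        (by rw [pre_length]; exact hp0)
      rw [show F t.1.1 (X0 + z (k * k - ss)) k0 = F t.1.1 (X0 + unit g) k0 from this]
      revert hk0
      cases F t.1.1 (X0 + unit g) k0 <;> cases F t.1.1 X0 k0 <;> simp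
  have hfin : Red a (jn (G 0) (jn (F t.1.2.1 Y) (F t.2.1 δ))) := hdec.trans hit
  have hG0 : G 0 = π.f (W + tens r' ah) := by
    show F t.1.1 (X0 + z 0) = _
    have : X0 + z 0 = W + tens r' ah := by
      have hs0 : shift 0 ah = ah := rfl
      show W + tens r ah + tens (r + r') (shift 0 ah) = _
      rw [hs0, tens_add]
      have : W + tens r ah + (tens r ah + tens r' ah) = W + tens r' ah + (tens r ah + tens r ah) := by
        abel
      rw [this, om_add_self, add_zero]
    rw [this]; exact hr'S
  rw [hG0, hSa, hSd] at hfin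
  have hle : ∀ {A B : Om}, Red A B → Red (π.f A) (π.f B) := fun h => (π.f_red _ _).1 h
  have hfin2 : Red a (π.f (jn (W + tens r' ah) (jn Y δ))) := by
    refine hfin.trans (jn_red (hle (red_jn_left _ _)) ?_)
    exact jn_red (hle ((red_jn_left _ _).trans (red_jn_right _ _)))
      (hle ((red_jn_right _ _).trans (red_jn_right _ _)))
  have hfin3 : Red (π.g a) (jn (W + tens r' ah) (jn Y δ)) := (π.g_red_iff _ _).2 hfin2
  apply hr'4
  refine hfin3.trans ?_
  show Red _ (jn a (jn (jn W Y) (jn r r')))
  have rW : Red W (jn a (jn (jn W Y) (jn r r'))) :=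
    (red_jn_left _ _).trans ((red_jn_left _ _).trans (red_jn_right _ _))
  have rY : Red Y (jn a (jn (jn W Y) (jn r r'))) :=
    (red_jn_right _ _).trans ((red_jn_left _ _).trans (red_jn_right _ _))
  have rr : Red r (jn a (jn (jn W Y) (jn r r'))) :=
    (red_jn_left _ _).trans ((red_jn_right _ _).trans (red_jn_right _ _))
  have rr' : Red r' (jn a (jn (jn W Y) (jn r r'))) :=
    (red_jn_right _ _).trans ((red_jn_right _ _).trans (red_jn_right _ _))
  have rah : Red ah (jn a (jn (jn W Y) (jn r r'))) := (red_spread a).trans (red_jn_left _ _)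
  have rX0 : Red X0 (jn a (jn (jn W Y) (jn r r'))) :=
    (red_add _ _).trans (jn_red rW ((red_tens _ _).trans (jn_red rr rah)))
  have rX' : Red (W + tens r' ah) (jn a (jn (jn W Y) (jn r r'))) :=
    (red_add _ _).trans (jn_red rW ((red_tens _ _).trans (jn_red rr' rah)))
  have rδ : Red δ (jn a (jn (jn W Y) (jn r r'))) :=
    (red_add _ _).trans (jn_red ((red_add _ _).trans (jn_red ((red_sh _).trans rX0) rY)) rX0)
  exact jn_red rX' (jn_red rY rδ)

theorem Auto.g_red_self (π : Auto) (a : Om) : Red (π.g a) a := by
  by_cases ha : a = 0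
  · have h1 : Red a (unit 0) := by
      rw [ha]
      have : (0 : Om) = unit 0 + unit 0 := (om_add_self _).symm
      rw [this]
      exact (red_add _ _).trans (jn_red (Red.refl _) (Red.refl _))
    have hne : (unit 0 : Om) ≠ 0 := by
      intro h
      have := congrFun h 0
      simp [unit] at this
    have h2 : Red (unit 0) a := red_unit 0 a
    exact ((π.g_red _ _).1 h1).trans ((π.g_red_self_of_ne _ hne).trans h2)
  · exact π.g_red_self_of_ne a ha

end Vale.Agent.P327
end
end

section

section

/-!
Assembly: from the statement about reals to the statement about degrees.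
-/

namespace Vale.Agent.P327

/-- The degree of a real. -/
noncomputable def dg (X : Om) : TDeg := toAntisymmetrization (· ≤ ·) (⟨{n | X n = true}⟩ : SetN)

theorem charFn_eq (X : Om) : charFn {n | X n = true} = fun n => Part.some (X n).toNat := by
  funext n
  cases h : X n <;> simp [charFn, h]

theorem dg_le_iff (X Y : Om) : dg X ≤ dg Y ↔ Red X Y := by
  rw [red_iff_turing, ← charFn_eq, ← charFn_eq]
  exact Iff.rfl

theorem dg_eq_iff (X Y : Om) : dg X = dg Y ↔ Eqv X Y := by
  rw [le_antisymm_iff, dg_le_iff, dg_le_iff]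
  exact Iff.rfl

theorem dg_surj (a : TDeg) : ∃ X : Om, dg X = a := by
  classical
  induction a using Quotient.inductionOn' with
  | h A =>
    refine ⟨fun n => decide (n ∈ A.carrier), ?_⟩
    unfold dg
    have : ({n | decide (n ∈ A.carrier) = true} : Set ℕ) = A.carrier := by
      ext n
      change decide (n ∈ A.carrier) = true ↔ _
      simp
    rw [this]
    rfl

/-- Present an automorphism by functions on reals. -/
noncomputable def toAuto (π : TDeg ≃o TDeg) : Auto where
  f X := (dg_surj (π (dg X))).choose
  g X := (dg_surj (π.symm (dg X))).choose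
  f_red X Y := by
    rw [← dg_le_iff, ← dg_le_iff, (dg_surj (π (dg X))).choose_spec, (dg_surj (π (dg Y))).choose_spec,
      π.le_iff_le]
  g_red X Y := by
    rw [← dg_le_iff, ← dg_le_iff, (dg_surj (π.symm (dg X))).choose_spec,
      (dg_surj (π.symm (dg Y))).choose_spec, π.symm.le_iff_le]
  fg X := by
    rw [← dg_eq_iff, (dg_surj (π (dg (dg_surj (π.symm (dg X))).choose))).choose_spec,
      (dg_surj (π.symm (dg X))).choose_spec, π.apply_symm_apply]
  gf X := by
    rw [← dg_eq_iff, (dg_surj (π.symm (dg (dg_surj (π (dg X))).choose))).choose_spec,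
      (dg_surj (π (dg X))).choose_spec, π.symm_apply_apply]

theorem toAuto_g (π : TDeg ≃o TDeg) (X : Om) : dg ((toAuto π).g X) = π.symm (dg X) :=
  (dg_surj (π.symm (dg X))).choose_spec

theorem main_of (H : ∀ (π : Auto) (a : Om), Red (π.g a) a) (π : TDeg ≃o TDeg) (a : TDeg) :
    π a = a := by
  have h1 : ∀ (ρ : TDeg ≃o TDeg) (b : TDeg), ρ.symm b ≤ b := by
    intro ρ b
    obtain ⟨X, rfl⟩ := dg_surj b
    rw [← toAuto_g, dg_le_iff]
    exact H _ _
  apply le_antisymm
  · have := h1 π.symm a
    simpa only [ge_iff_le, OrderIso.symm_symm] using this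
  · have := h1 π (π a)
    simpa using this

end Vale.Agent.P327
end
end
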